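import Mathlib

namespace Vale.Agent.Helper25.BS

/-- `flip x B` is `x` with exactly the coordinates in `B` flipped. -/
def flip {n : ℕ} (x : Fin n → Bool) (B : Finset (Fin n)) : Fin n → Bool :=
  fun i => if i ∈ B then !(x i) else x i

/-- `s(f,x)`: the number of coordinates `a` with `f(x^a) ≠ f(x)`. -/
def sensAt {n : ℕ} (f : (Fin n → Bool) → Bool) (x : Fin n → Bool) : ℕ :=
  (Finset.univ.filter (fun a : Fin n => f (flip x {a}) ≠ f x)).card

/-- `s(f)`: the maximum of `s(f,x)` over all inputs `x`. -/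
def sens {n : ℕ} (f : (Fin n → Bool) → Bool) : ℕ :=
  Finset.univ.sup (sensAt f)

/-- `s_b(f)`: the maximum of `s(f,x)` over the inputs `x` with `f(x) = b` (0 if there are none). -/
def sensOn {n : ℕ} (f : (Fin n → Bool) → Bool) (b : Bool) : ℕ :=
  (Finset.univ.filter (fun x => f x = b)).sup (sensAt f)

/-- `bs(f,x)`: the largest `m` such that there are `m` pairwise disjoint nonempty blocks `B_j`
with `f(x^{B_j}) ≠ f(x)` for every `j`. -/
noncomputable def bsAt {n : ℕ} (f : (Fin n → Bool) → Bool) (x : Fin n → Bool) : ℕ :=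
  sSup {m : ℕ | ∃ B : Fin m → Finset (Fin n), (∀ j, (B j).Nonempty) ∧
    (∀ i j, i ≠ j → Disjoint (B i) (B j)) ∧ ∀ j, f (flip x (B j)) ≠ f x}

/-- `bs(f)`: the maximum of `bs(f,x)` over all inputs `x`. -/
noncomputable def bs {n : ℕ} (f : (Fin n → Bool) → Bool) : ℕ :=
  Finset.univ.sup (bsAt f)

end Vale.Agent.Helper25.BS
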