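import Mathlib

/-
Adapted from the Mathlib archive file on Huang's theorem (Barton, Commelin, Han, Hughes, Lewis,
Massot), Apache 2.0.  The last part gives the two-sided degree version used here.
-/

namespace Vale.Agent.Helper25.Huang

noncomputable section

open Bool Finset Fintype Function LinearMap Module Module.DualBases

/-- The hypercube in dimension `n`. -/
abbrev Q (n : ℕ) :=
  Fin n → Bool

/-- The projection from `Q n.succ` to `Q n` forgetting the first value -/
def pj {n : ℕ} : Q n.succ → Q n := fun p => p ∘ Fin.succ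

namespace Q

theorem ext {n} {f g : Q n} (h : ∀ x, f x = g x) : f = g := funext h

variable (n : ℕ)

instance : Unique (Q 0) :=
  ⟨⟨fun _ => true⟩, by intro; ext x; fin_cases x⟩

theorem card : card (Q n) = 2 ^ n := by simp

variable {n}

theorem succ_n_eq (p q : Q n.succ) : p = q ↔ p 0 = q 0 ∧ pj p = pj q := by
  constructor
  · rintro rfl; exact ⟨rfl, rfl⟩
  · rintro ⟨h₀, h⟩
    ext x
    by_cases hx : x = 0
    · rwa [hx]
    · rw [← Fin.succ_pred x hx]
      convert! congr_fun h (Fin.pred x hx)

/-- adjacency -/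
def adjacent {n : ℕ} (p : Q n) : Set (Q n) := { q | ∃! i, p i ≠ q i }

theorem not_adjacent_zero (p q : Q 0) : q ∉ p.adjacent := by rintro ⟨v, _⟩; apply finZeroElim v

theorem adj_iff_proj_eq {p q : Q n.succ} (h₀ : p 0 ≠ q 0) : q ∈ p.adjacent ↔ pj p = pj q := by
  constructor
  · rintro ⟨i, _, h_uni⟩
    ext x; by_contra hx
    apply Fin.succ_ne_zero x
    rw [h_uni _ hx, h_uni _ h₀]
  · intro heq
    use 0, h₀
    intro y hy
    contrapose! hy
    rw [← Fin.succ_pred _ hy]
    apply congr_fun heq

theorem adj_iff_proj_adj {p q : Q n.succ} (h₀ : p 0 = q 0) :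
    q ∈ p.adjacent ↔ pj q ∈ (pj p).adjacent := by
  constructor
  · rintro ⟨i, h_eq, h_uni⟩
    have h_i : i ≠ 0 := fun h_i => absurd h₀ (by rwa [h_i] at h_eq)
    use i.pred h_i,
      show p (Fin.succ (Fin.pred i _)) ≠ q (Fin.succ (Fin.pred i _)) by rwa [Fin.succ_pred]
    intro y hy
    simp [Eq.symm (h_uni _ hy)]
  · rintro ⟨i, h_eq, h_uni⟩
    use i.succ, h_eq
    intro y hy
    rw [← Fin.pred_inj (ha := (?ha : y ≠ 0)) (hb := (?hb : i.succ ≠ 0)),
      Fin.pred_succ]
    case ha =>
      contrapose hy
      rw [hy, h₀]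
    case hb =>
      apply Fin.succ_ne_zero
    apply h_uni
    simp [pj, hy]

theorem adjacent.symm {p q : Q n} : q ∈ p.adjacent ↔ p ∈ q.adjacent := by
  simp only [adjacent, ne_comm, Set.mem_ofPred_eq]

end Q

/-- The free vector space on vertices of a hypercube, defined inductively. -/
def V : ℕ → Type
  | 0 => ℝ
  | n + 1 => V n × V n

@[simp]
theorem V_zero : V 0 = ℝ := rfl

@[simp]
theorem V_succ {n : ℕ} : V (n + 1) = (V n × V n) := rfl

namespace V

@[ext]
theorem ext {n : ℕ} {p q : V n.succ} (h₁ : p.1 = q.1) (h₂ : p.2 = q.2) : p = q := Prod.ext h₁ h₂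

variable (n : ℕ)

instance : DecidableEq (V n) := by induction n <;> · dsimp only [V]; infer_instance

instance : AddCommGroup (V n) := by induction n <;> · dsimp only [V]; infer_instance

set_option backward.isDefEq.respectTransparency false in
instance : Module ℝ (V n) := by induction n <;> · dsimp only [V]; infer_instance

end V

/-- The basis of `V` indexed by the hypercube, defined inductively. -/
noncomputable def e : ∀ {n}, Q n → V n
  | 0 => fun _ => (1 : ℝ)
  | Nat.succ _ => fun x => cond (x 0) (e (pj x), 0) (0, e (pj x))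

@[simp]
theorem e_zero_apply (x : Q 0) : e x = (1 : ℝ) :=
  rfl

/-- The dual basis to `e`, defined inductively. -/
noncomputable def ε : ∀ {n : ℕ}, Q n → V n →ₗ[ℝ] ℝ
  | 0, _ => LinearMap.id
  | Nat.succ _, p =>
    cond (p 0) ((ε <| pj p).comp <| LinearMap.fst _ _ _) ((ε <| pj p).comp <| LinearMap.snd _ _ _)

variable {n : ℕ}

set_option backward.isDefEq.respectTransparency false in
theorem duality (p q : Q n) : ε p (e q) = if p = q then 1 else 0 := by
  induction n with
  | zero => simp [Subsingleton.elim (α := Q 0) p q, ε, e]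
  | succ n IH =>
    dsimp [ε, e]
    cases hp : p 0 <;> cases hq : q 0
    all_goals
      simp only [Bool.cond_true, Bool.cond_false, LinearMap.fst_apply, LinearMap.snd_apply,
        LinearMap.comp_apply, IH]
      congr 1; simp [Q.succ_n_eq, hp, hq]

theorem epsilon_total {v : V n} (h : ∀ p : Q n, (ε p) v = 0) : v = 0 := by
  induction n with
  | zero => dsimp [ε] at h; exact h fun _ => true
  | succ n ih =>
    obtain ⟨v₁, v₂⟩ := v
    ext <;> change _ = (0 : V n) <;> simp only <;> apply ih <;> intro p <;>
      [let q : Q n.succ := fun i => if h : i = 0 then true else p (i.pred h);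
      let q : Q n.succ := fun i => if h : i = 0 then false else p (i.pred h)]
    all_goals
      specialize h q
      first
      | rw [ε, show q 0 = true from rfl, Bool.cond_true] at h
      | rw [ε, show q 0 = false from rfl, Bool.cond_false] at h
      rwa [show p = pj q by ext; simp [q, Fin.succ_ne_zero, pj]]

open Module

theorem dualBases_e_ε (n : ℕ) : DualBases (@e n) (@ε n) where
  eval_same := by simp [duality]
  eval_of_ne _ _ h := by simp [duality, h]
  total h := sub_eq_zero.mp <| epsilon_total fun i ↦ by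
    simpa only [map_sub, sub_eq_zero] using h i

theorem dim_V : Module.rank ℝ (V n) = 2 ^ n := by
  have : Module.rank ℝ (V n) = (2 ^ n : ℕ) := by
    rw [rank_eq_card_basis (dualBases_e_ε _).basis, Q.card]
  assumption_mod_cast

instance : FiniteDimensional ℝ (V n) :=
  (dualBases_e_ε _).basis.finiteDimensional_of_finite

theorem finrank_V : finrank ℝ (V n) = 2 ^ n := by
  have := @dim_V n
  rw [← finrank_eq_rank] at this; assumption_mod_cast

/-- Huang's matrix as a linear operator. -/
noncomputable def f : ∀ n, V n →ₗ[ℝ] V n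
  | 0 => 0
  | n + 1 =>
    LinearMap.prod (LinearMap.coprod (f n) LinearMap.id) (LinearMap.coprod LinearMap.id (-f n))

@[simp]
theorem f_zero : f 0 = 0 :=
  rfl

theorem f_succ_apply (v : V n.succ) : f n.succ v = (f n v.1 + v.2, v.1 - f n v.2) := by
  cases v
  rw [f]
  simp only [sub_eq_add_neg]
  exact rfl

set_option backward.isDefEq.respectTransparency false in
theorem f_squared (v : V n) : (f n) (f n v) = (n : ℝ) • v := by
  induction n with
  | zero => simp only [Nat.cast_zero, zero_smul, f_zero, LinearMap.zero_apply]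
  | succ n IH =>
    cases v; rw [f_succ_apply, f_succ_apply]; simp [IH, add_smul (n : ℝ) 1, add_assoc]; abel

set_option backward.isDefEq.respectTransparency false in
open scoped Classical in
theorem f_matrix (p q : Q n) : |ε q (f n (e p))| = if p ∈ q.adjacent then 1 else 0 := by
  induction n with
  | zero =>
    dsimp [f]
    simp [Q.not_adjacent_zero]
    rfl
  | succ n IH =>
    have ite_nonneg : ite (pj q = pj p) (1 : ℝ) 0 ≥ 0 := by split_ifs <;> norm_num
    dsimp only [e, ε, f, V]; rw [LinearMap.prod_apply]; dsimp; cases hp : p 0 <;> cases hq : q 0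
    all_goals
      repeat rw [Bool.cond_true]
      repeat rw [Bool.cond_false]
      simp [hp, hq, IH, duality, abs_of_nonneg ite_nonneg, Q.adj_iff_proj_eq,
        Q.adj_iff_proj_adj]

/-- Knuth's matrix as a linear operator. -/
noncomputable def g (m : ℕ) : V m →ₗ[ℝ] V m.succ :=
  LinearMap.prod (f m + Real.sqrt (m + 1) • LinearMap.id) LinearMap.id

variable {m : ℕ}

set_option backward.isDefEq.respectTransparency false in
theorem g_apply : ∀ v, g m v = (f m v + Real.sqrt (m + 1) • v, v) := by
  delta g; intro v; simp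

set_option backward.isDefEq.respectTransparency false in
theorem g_injective : Injective (g m) := by
  rw [g]
  intro x₁ x₂ h
  simp only [V, LinearMap.prod_apply, LinearMap.id_apply, Prod.mk_inj, Function.prod_apply] at h
  exact h.right

set_option backward.isDefEq.respectTransparency false in
theorem f_image_g (w : V m.succ) (hv : ∃ v, g m v = w) :
    f m.succ w = Real.sqrt (m + 1) • w := by
  rcases hv with ⟨v, rfl⟩
  have : Real.sqrt (m + 1) * Real.sqrt (m + 1) = m + 1 := Real.mul_self_sqrt (mod_cast zero_le)
  rw [f_succ_apply, g_apply]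
  simp [this, f_squared, smul_add, add_smul, smul_smul]
  abel

open scoped Classical in
theorem exists_eigenvalue (H : Set (Q m.succ)) (hH : (Set.toFinset H).card ≥ 2 ^ m + 1) :
    ∃ y ∈ Submodule.span ℝ (e '' H) ⊓ range (g m), y ≠ 0 := by
  let W := Submodule.span ℝ (e '' H)
  let img := range (g m)
  suffices 0 < Module.rank ℝ (W ⊓ img : Submodule ℝ (V m.succ)) by
    exact mod_cast exists_mem_ne_zero_of_rank_pos this
  have dim_le : Module.rank ℝ (W ⊔ img : Submodule ℝ (V m.succ)) ≤ 2 ^ (m + 1 : Cardinal) := by
    convert! ← Submodule.rank_le (W ⊔ img)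
    rw [← Nat.cast_succ]
    apply dim_V
  have dim_add : Module.rank ℝ (W ⊔ img : Submodule ℝ (V m.succ)) +
      Module.rank ℝ (W ⊓ img : Submodule ℝ (V m.succ)) = Module.rank ℝ W + 2 ^ m := by
    convert! ← Submodule.rank_sup_add_rank_inf_eq W img
    rw [rank_range_of_injective (g m) g_injective]
    apply dim_V
  have dimW : Module.rank ℝ W = Fintype.card H := by
    have li : LinearIndependent ℝ (H.domRestrict e) := by
      convert! (dualBases_e_ε m.succ).basis.linearIndependent.comp _ Subtype.val_injective
      rw [(dualBases_e_ε _).coe_basis]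
      rfl
    have hdW := rank_span li
    rw [Set.range_domRestrict] at hdW
    convert! hdW
    rw [← (dualBases_e_ε _).coe_basis, Cardinal.mk_image_eq (dualBases_e_ε _).basis.injective,
      Cardinal.mk_fintype]
  rw [← finrank_eq_rank ℝ] at dim_le dim_add dimW ⊢
  rw [← finrank_eq_rank ℝ, ← finrank_eq_rank ℝ] at dim_add
  norm_cast at dim_le dim_add dimW ⊢
  rw [pow_succ'] at dim_le
  rw [Set.toFinset_card] at hH
  linarith

set_option backward.isDefEq.respectTransparency false in
open scoped Classical in
/-- A nonzero weight function supported on `H`, with the eigenvector inequality. -/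
theorem exists_weight (H : Set (Q m.succ)) (hH : (Set.toFinset H).card ≥ 2 ^ m + 1) :
    ∃ c : Q m.succ → ℝ, (∀ q, 0 ≤ c q) ∧ (∃ q, c q ≠ 0) ∧ (∀ q, c q ≠ 0 → q ∈ H) ∧
      ∀ q, Real.sqrt (m + 1) * c q ≤ ∑ p ∈ (H ∩ q.adjacent).toFinset, c p := by
  rcases exists_eigenvalue H hH with ⟨y, ⟨⟨y_mem_H, y_mem_g⟩, y_ne⟩⟩
  refine ⟨fun q => |ε q y|, fun q => abs_nonneg _, ?_, ?_, ?_⟩
  · by_contra hcon
    push Not at hcon
    exact y_ne (epsilon_total fun p => abs_eq_zero.mp (hcon p))
  · intro q hq
    exact (dualBases_e_ε _).mem_of_mem_span y_mem_H q (abs_ne_zero.mp hq)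
  · intro q
    have coeffs_support : ((dualBases_e_ε m.succ).coeffs y).support ⊆ H.toFinset := by
      intro p p_in
      rw [Finsupp.mem_support_iff] at p_in
      rw [Set.mem_toFinset]
      exact (dualBases_e_ε _).mem_of_mem_span y_mem_H p p_in
    let s := Real.sqrt (m + 1)
    let coeffs := (dualBases_e_ε m.succ).coeffs
    calc
      s * |ε q y| = |ε q (s • y)| := by
        rw [map_smul, smul_eq_mul, abs_mul, abs_of_nonneg (Real.sqrt_nonneg _)]
      _ = |ε q (f m.succ y)| := by rw [← f_image_g y (by simpa using! y_mem_g)]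
      _ = |ε q (f m.succ (lc _ (coeffs y)))| := by rw [(dualBases_e_ε _).lc_coeffs y]
      _ =
          |(coeffs y).sum fun (i : Q m.succ) (a : ℝ) =>
              a • (ε q ∘ f m.succ ∘ fun i : Q m.succ => e i) i| := by
        rw [lc_def, (f m.succ).map_finsupp_linearCombination, (ε q).map_finsupp_linearCombination,
             Finsupp.linearCombination_apply]
      _ ≤ ∑ p ∈ (coeffs y).support, |coeffs y p * (ε q <| f m.succ <| e p)| :=
        (norm_sum_le _ fun p => coeffs y p * _)
      _ = ∑ p ∈ (coeffs y).support, |coeffs y p| * ite (p ∈ q.adjacent) 1 0 := by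
        simp only [abs_mul, f_matrix]
      _ = ∑ p ∈ (coeffs y).support with p ∈ q.adjacent, |coeffs y p| := by
        simp [sum_filter]
      _ ≤ ∑ p ∈ (H ∩ q.adjacent).toFinset, |ε p y| := by
        apply Finset.sum_le_sum_of_subset_of_nonneg
        · intro p hp
          rw [Finset.mem_filter] at hp
          rw [Set.mem_toFinset]
          exact ⟨Set.mem_toFinset.mp (coeffs_support hp.1), hp.2⟩
        · intro p _ _; exact abs_nonneg _

/-- The sign of a vertex. -/
def sgn {n : ℕ} (q : Q n) : ℤ := ∏ i, (if q i then (-1) else 1)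

theorem sgn_adj {n : ℕ} {p q : Q n} (h : p ∈ q.adjacent) : sgn p = - sgn q := by
  obtain ⟨i, hi, huni⟩ := h
  unfold sgn
  rw [← Finset.mul_prod_erase univ _ (Finset.mem_univ i),
    ← Finset.mul_prod_erase univ (fun i => if q i then (-1:ℤ) else 1) (Finset.mem_univ i)]
  have h1 : ∏ x ∈ univ.erase i, (if p x then (-1:ℤ) else 1)
      = ∏ x ∈ univ.erase i, (if q x then (-1:ℤ) else 1) := by
    apply Finset.prod_congr rfl
    intro x hx
    have hx' : x ≠ i := Finset.ne_of_mem_erase hx
    have : q x = p x := by
      by_contra hne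
      exact hx' (huni x hne)
    rw [this]
  rw [h1]
  have hi' : q i ≠ p i := hi
  cases hq : q i <;> cases hp : p i <;> simp_all

theorem sgn_eq_or {n : ℕ} (q : Q n) : sgn q = 1 ∨ sgn q = -1 := by
  unfold sgn
  induction (univ : Finset (Fin n)) using Finset.induction_on with
  | empty => simp
  | insert a s ha ih =>
    rw [Finset.prod_insert ha]
    rcases ih with h | h <;> rw [h] <;> by_cases hq : q a <;> simp [hq]

open scoped Classical in
/-- Two-sided version of Huang's degree theorem. -/
theorem huang_two_sided (H : Set (Q m.succ)) (hH : (Set.toFinset H).card ≥ 2 ^ m + 1)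
    (a b : ℕ)
    (ha : ∀ q ∈ H, sgn q = 1 → ∀ S : Finset (Q m.succ),
      (∀ p ∈ S, p ∈ H ∧ p ∈ q.adjacent) → S.card ≤ a)
    (hb : ∀ q ∈ H, sgn q = -1 → ∀ S : Finset (Q m.succ),
      (∀ p ∈ S, p ∈ H ∧ p ∈ q.adjacent) → S.card ≤ b) :
    m + 1 ≤ a * b := by
  obtain ⟨c, hc0, ⟨q₀, hq₀⟩, hcH, hc⟩ := exists_weight H hH
  -- maxima on both sides
  let c1 : Q m.succ → ℝ := fun q => if sgn q = 1 then c q else 0
  let c2 : Q m.succ → ℝ := fun q => if sgn q = -1 then c q else 0
  obtain ⟨q1, hq1⟩ := Finite.exists_max c1
  obtain ⟨q2, hq2⟩ := Finite.exists_max c2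
  set M1 := c1 q1 with hM1
  set M2 := c2 q2 with hM2
  have hM1nn : 0 ≤ M1 := by
    rw [hM1]; simp only [c1]; split_ifs; exact hc0 _; exact le_refl _
  have hM2nn : 0 ≤ M2 := by
    rw [hM2]; simp only [c2]; split_ifs; exact hc0 _; exact le_refl _
  set s := Real.sqrt (m + 1) with hs
  have hspos : 0 < s := Real.sqrt_pos.mpr (by positivity)
  have key1 : s * M1 ≤ a * M2 := by
    by_cases h0 : M1 = 0
    · rw [h0, mul_zero]; positivity
    · have hsg : sgn q1 = 1 := by
        by_contra hne
        apply h0; rw [hM1]; simp only [c1]; rw [if_neg hne]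
      have hval : M1 = c q1 := by rw [hM1]; simp only [c1]; rw [if_pos hsg]
      have hq1H : q1 ∈ H := hcH q1 (by rw [← hval]; exact h0)
      rw [hval]
      refine (hc q1).trans ?_
      calc ∑ p ∈ (H ∩ q1.adjacent).toFinset, c p
          ≤ ∑ p ∈ (H ∩ q1.adjacent).toFinset, M2 := by
            apply Finset.sum_le_sum
            intro p hp
            rw [Set.mem_toFinset] at hp
            have hsp : sgn p = -1 := by rw [sgn_adj hp.2, hsg]
            have := hq2 p
            simp only [c2] at this
            rw [if_pos hsp] at this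
            exact this
        _ = (H ∩ q1.adjacent).toFinset.card * M2 := by rw [Finset.sum_const, nsmul_eq_mul]
        _ ≤ a * M2 := by
            apply mul_le_mul_of_nonneg_right _ hM2nn
            exact_mod_cast ha q1 hq1H hsg _ (fun p hp => by
              have h := Set.mem_toFinset.mp hp
              exact ⟨h.1, h.2⟩)
  have key2 : s * M2 ≤ b * M1 := by
    by_cases h0 : M2 = 0
    · rw [h0, mul_zero]; positivity
    · have hsg : sgn q2 = -1 := by
        by_contra hne
        apply h0; rw [hM2]; simp only [c2]; rw [if_neg hne]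
      have hval : M2 = c q2 := by rw [hM2]; simp only [c2]; rw [if_pos hsg]
      have hq2H : q2 ∈ H := hcH q2 (by rw [← hval]; exact h0)
      rw [hval]
      refine (hc q2).trans ?_
      calc ∑ p ∈ (H ∩ q2.adjacent).toFinset, c p
          ≤ ∑ p ∈ (H ∩ q2.adjacent).toFinset, M1 := by
            apply Finset.sum_le_sum
            intro p hp
            rw [Set.mem_toFinset] at hp
            have hsp : sgn p = 1 := by rw [sgn_adj hp.2, hsg]; norm_num
            have := hq1 p
            simp only [c1] at this
            rw [if_pos hsp] at this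
            exact this
        _ = (H ∩ q2.adjacent).toFinset.card * M1 := by rw [Finset.sum_const, nsmul_eq_mul]
        _ ≤ b * M1 := by
            apply mul_le_mul_of_nonneg_right _ hM1nn
            exact_mod_cast hb q2 hq2H hsg _ (fun p hp => by
              have h := Set.mem_toFinset.mp hp
              exact ⟨h.1, h.2⟩)
  have hss : s * s = m + 1 := Real.mul_self_sqrt (by positivity)
  have hpos : 0 < M1 ∧ 0 < M2 := by
    have hsome : 0 < M1 ∨ 0 < M2 := by
      have hcq : 0 < c q₀ := lt_of_le_of_ne (hc0 _) (Ne.symm hq₀)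
      rcases sgn_eq_or q₀ with h | h
      · left
        have := hq1 q₀
        simp only [c1] at this
        rw [if_pos h] at this
        exact lt_of_lt_of_le hcq this
      · right
        have := hq2 q₀
        simp only [c2] at this
        rw [if_pos h] at this
        exact lt_of_lt_of_le hcq this
    rcases hsome with h | h
    · refine ⟨h, ?_⟩
      by_contra hcon
      have : M2 = 0 := le_antisymm (not_lt.mp hcon) hM2nn
      rw [this, mul_zero] at key1
      nlinarith
    · refine ⟨?_, h⟩
      by_contra hcon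
      have : M1 = 0 := le_antisymm (not_lt.mp hcon) hM1nn
      rw [this, mul_zero] at key2
      nlinarith
  have h3 : (s * M1) * (s * M2) ≤ (a * M2) * (b * M1) :=
    mul_le_mul key1 key2 (by nlinarith [hpos.2]) (by
      have : (0:ℝ) ≤ a := Nat.cast_nonneg a
      exact mul_nonneg this hM2nn)
  have h4 : ((m:ℝ) + 1) * (M1 * M2) ≤ (a * b) * (M1 * M2) := by
    calc ((m:ℝ) + 1) * (M1 * M2) = (s * M1) * (s * M2) := by rw [← hss]; ring
      _ ≤ (a * M2) * (b * M1) := h3
      _ = (a * b) * (M1 * M2) := by ring
  have h5 : ((m:ℝ) + 1) ≤ a * b := le_of_mul_le_mul_right h4 (mul_pos hpos.1 hpos.2)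
  exact_mod_cast h5

/-- The same statement for finite sets, with degree bounds phrased through finite subsets. -/
theorem huang_two_sided' (H : Finset (Q m.succ)) (hH : 2 ^ m + 1 ≤ H.card)
    (a b : ℕ)
    (ha : ∀ q ∈ H, sgn q = 1 → ∀ S : Finset (Q m.succ),
      (∀ p ∈ S, p ∈ H ∧ p ∈ q.adjacent) → S.card ≤ a)
    (hb : ∀ q ∈ H, sgn q = -1 → ∀ S : Finset (Q m.succ),
      (∀ p ∈ S, p ∈ H ∧ p ∈ q.adjacent) → S.card ≤ b) :
    m + 1 ≤ a * b := by
  classical
  refine huang_two_sided (H : Set (Q m.succ)) ?_ a b ?_ ?_
  · rw [Set.toFinset_card]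
    simpa using hH
  · intro q hq hs S hS
    exact ha q (by simpa using hq) hs S (fun p hp => by simpa using hS p hp)
  · intro q hq hs S hS
    exact hb q (by simpa using hq) hs S (fun p hp => by simpa using hS p hp)

end

end Vale.Agent.Helper25.Huang
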