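import Mathlib
import Vale.Agent.Helper25.BSDefs
import Vale.Agent.Helper25.Huang

namespace Vale.Agent.Helper25.BS

open Finset Vale.Agent.Helper25.Huang

lemma flip_flip_single {n : ℕ} (x : Fin n → Bool) (U : Finset (Fin n)) (a : Fin n) :
    flip x (symmDiff U {a}) = flip (flip x U) {a} := by
  funext i
  unfold flip
  by_cases h1 : i ∈ U <;> by_cases h2 : i = a <;> simp [Finset.mem_symmDiff, h1, h2]
  · subst h2; simp [h1]
  · subst h2; simp [h1]

lemma sensAt_le_sensOn {n : ℕ} (f : (Fin n → Bool) → Bool) (x : Fin n → Bool) :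
    sensAt f x ≤ sensOn f (f x) := by
  unfold sensOn
  exact Finset.le_sup (f := sensAt f) (by simp)

lemma sensOn_le_sens {n : ℕ} (f : (Fin n → Bool) → Bool) (b : Bool) :
    sensOn f b ≤ sens f := by
  unfold sensOn sens
  exact Finset.sup_mono (Finset.filter_subset _ _)

/-- the subset of `Fin n` coded by a vertex of a cube, through an embedding -/
def cubeSet {n k : ℕ} (e : Fin k ↪ Fin n) (q : Q k) : Finset (Fin n) :=
  (Finset.univ.filter (fun i => q i = true)).map e

lemma cubeSet_adj {n k : ℕ} (e : Fin k ↪ Fin n) {p q : Q k} (h : p ∈ q.adjacent) :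
    ∃ i, cubeSet e p = symmDiff (cubeSet e q) {e i} ∧ p = Function.update q i (!(q i)) := by
  obtain ⟨i, hi, huni⟩ := h
  have hp : p = Function.update q i (!(q i)) := by
    funext j
    by_cases hj : j = i
    · subst hj
      simp only [Function.update_self]
      have hi' : q j ≠ p j := hi
      cases h1 : q j <;> cases h2 : p j <;> simp_all
    · rw [Function.update_of_ne hj]
      by_contra hne
      exact hj (huni j (fun h => hne h.symm))
  refine ⟨i, ?_, hp⟩
  ext a
  simp only [cubeSet, Finset.mem_map, Finset.mem_filter, Finset.mem_univ, true_and,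
    Finset.mem_symmDiff, Finset.mem_singleton]
  constructor
  · rintro ⟨j, hj, rfl⟩
    by_cases hji : j = i
    · subst hji
      right
      refine ⟨rfl, ?_⟩
      rintro ⟨l, hl, hle⟩
      have : l = j := e.injective hle
      subst this
      rw [hp] at hj
      simp [hl] at hj
    · left
      refine ⟨⟨j, ?_, rfl⟩, fun h => hji (e.injective h)⟩
      rw [hp, Function.update_of_ne hji] at hj
      exact hj
  · rintro (⟨⟨j, hj, rfl⟩, hne⟩ | ⟨rfl, hnot⟩)
    · have hji : j ≠ i := fun h => hne (by rw [h])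
      exact ⟨j, by rw [hp, Function.update_of_ne hji]; exact hj, rfl⟩
    · refine ⟨i, ?_, rfl⟩
      rw [hp, Function.update_self]
      have : q i = false := by
        by_contra hcon
        exact hnot ⟨i, by simpa using hcon, rfl⟩
      rw [this]; rfl

open scoped Classical in
lemma card_adj_le {n k : ℕ} (f : (Fin n → Bool) → Bool) (x : Fin n → Bool) (e : Fin k ↪ Fin n)
    (q : Q k) (S : Finset (Q k))
    (hS : ∀ p ∈ S, p ∈ q.adjacent ∧ f (flip x (cubeSet e p)) ≠ f (flip x (cubeSet e q))) :
    S.card ≤ sensAt f (flip x (cubeSet e q)) := by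
  unfold sensAt
  let I : Finset (Fin k) := Finset.univ.filter
    (fun i => f (flip (flip x (cubeSet e q)) {e i}) ≠ f (flip x (cubeSet e q)))
  have h1 : S ⊆ I.image (fun i => Function.update q i (!(q i))) := by
    intro p hp
    obtain ⟨hadj, hne⟩ := hS p hp
    obtain ⟨i, hi1, hi2⟩ := cubeSet_adj e hadj
    rw [Finset.mem_image]
    refine ⟨i, ?_, hi2.symm⟩
    simp only [I, Finset.mem_filter, Finset.mem_univ, true_and]
    rw [← flip_flip_single, ← hi1]
    exact hne
  calc S.card ≤ (I.image (fun i => Function.update q i (!(q i)))).card := Finset.card_le_card h1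
    _ ≤ I.card := Finset.card_image_le
    _ = (I.map e).card := (Finset.card_map e).symm
    _ ≤ _ := by
      apply Finset.card_le_card
      intro a ha
      obtain ⟨i, hi, rfl⟩ := Finset.mem_map.mp ha
      simp only [I, Finset.mem_filter, Finset.mem_univ, true_and] at hi
      simp only [Finset.mem_filter, Finset.mem_univ, true_and]
      exact hi

lemma sum_sgn_eq_zero (m : ℕ) : ∑ q : Q (m+1), sgn q = 0 := by
  unfold sgn
  rw [← Fintype.piFinset_univ, ← Finset.prod_univ_sum (κ := fun _ : Fin (m+1) => Bool)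
    (t := fun _ => Finset.univ) (f := fun _ b => if b then (-1:ℤ) else 1)]
  simp

open scoped Classical in
/-- Abstract form: a predicate with nonzero alternating sum. -/
theorem abstract_bound {m : ℕ} (F : Q (m+1) → Prop) (a b : ℕ)
    (ha : ∀ q, F q → ∀ S : Finset (Q (m+1)), (∀ p ∈ S, p ∈ q.adjacent ∧ ¬ F p) → S.card ≤ a)
    (hb : ∀ q, ¬ F q → ∀ S : Finset (Q (m+1)), (∀ p ∈ S, p ∈ q.adjacent ∧ F p) → S.card ≤ b)
    (hne : ∑ q : Q (m+1), sgn q * (if F q then (1:ℤ) else 0) ≠ 0) :
    m + 1 ≤ a * b := by
  set H1 : Finset (Q (m+1)) := Finset.univ.filter (fun q => (F q ↔ sgn q = 1)) with hH1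
  set H2 : Finset (Q (m+1)) := Finset.univ.filter (fun q => ¬ (F q ↔ sgn q = 1)) with hH2
  have hdiff : (H1.card : ℤ) - (H2.card : ℤ)
      = 2 * ∑ q : Q (m+1), sgn q * (if F q then (1:ℤ) else 0) := by
    rw [hH1, hH2, Finset.card_filter, Finset.card_filter]
    push_cast
    rw [← Finset.sum_sub_distrib]
    have h0 := sum_sgn_eq_zero m
    have : ∑ q : Q (m+1), ((if (F q ↔ sgn q = 1) then (1:ℤ) else 0)
        - (if ¬ (F q ↔ sgn q = 1) then (1:ℤ) else 0))
        = ∑ q : Q (m+1), (2 * (sgn q * (if F q then (1:ℤ) else 0)) - sgn q) := by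
      apply Finset.sum_congr rfl
      intro q _
      rcases sgn_eq_or q with h | h <;> by_cases hq : F q <;> simp [h, hq]
    rw [this, Finset.sum_sub_distrib, h0, Finset.mul_sum]
    ring
  have hsum : H1.card + H2.card = 2 ^ (m+1) := by
    rw [hH1, hH2, Finset.card_filter_add_card_filter_not]
    simp
  have hne' : (H1.card : ℤ) ≠ H2.card := by
    intro h
    rw [h, sub_self] at hdiff
    apply hne
    have : (2:ℤ) * ∑ q : Q (m+1), sgn q * (if F q then (1:ℤ) else 0) = 0 := hdiff.symm
    linarith
  have hcases : 2 ^ m + 1 ≤ H1.card ∨ 2 ^ m + 1 ≤ H2.card := by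
    have : 2 ^ (m+1) = 2 * 2 ^ m := by ring
    have h3 : H1.card ≠ H2.card := fun h => hne' (by exact_mod_cast h)
    omega
  have hm1 : ∀ q, q ∈ H1 ↔ (F q ↔ sgn q = 1) := fun q => by rw [hH1]; simp
  have hm2 : ∀ q, q ∈ H2 ↔ ¬ (F q ↔ sgn q = 1) := fun q => by rw [hH2]; simp
  have h11 : ¬ ((-1:ℤ) = 1) := by norm_num
  clear_value H1 H2
  rcases hcases with hc | hc
  · refine huang_two_sided' (m := m) H1 hc a b ?_ ?_
    · intro q hq hs
      rw [hm1, hs] at hq
      have hFq : F q := hq.mpr rfl
      intro S hS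
      apply ha q hFq
      intro p hpS
      have hp := hS p hpS
      refine ⟨hp.2, ?_⟩
      have hp1 := (hm1 p).mp hp.1
      rw [sgn_adj hp.2, hs] at hp1
      exact fun h => h11 (hp1.mp h)
    · intro q hq hs
      rw [hm1, hs] at hq
      have hFq : ¬ F q := fun h => h11 (hq.mp h)
      intro S hS
      apply hb q hFq
      intro p hpS
      have hp := hS p hpS
      refine ⟨hp.2, ?_⟩
      have hp1 := (hm1 p).mp hp.1
      rw [sgn_adj hp.2, hs] at hp1
      exact hp1.mpr (by norm_num)
  · rw [mul_comm]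
    refine huang_two_sided' (m := m) H2 hc b a ?_ ?_
    · intro q hq hs
      rw [hm2, hs] at hq
      have hFq : ¬ F q := fun h => hq ⟨fun _ => rfl, fun _ => h⟩
      intro S hS
      apply hb q hFq
      intro p hpS
      have hp := hS p hpS
      refine ⟨hp.2, ?_⟩
      have hp1 := (hm2 p).mp hp.1
      rw [sgn_adj hp.2, hs] at hp1
      by_cases hFp : F p
      · exact hFp
      · exact absurd ⟨fun h => absurd h hFp, fun h => absurd h h11⟩ hp1
    · intro q hq hs
      rw [hm2, hs] at hq
      have hFq : F q := by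
        by_cases hFq : F q
        · exact hFq
        · exact absurd ⟨fun h => absurd h hFq, fun h => absurd h h11⟩ hq
      intro S hS
      apply ha q hFq
      intro p hpS
      have hp := hS p hpS
      refine ⟨hp.2, ?_⟩
      have hp1 := (hm2 p).mp hp.1
      rw [sgn_adj hp.2, hs] at hp1
      intro h
      exact hp1 ⟨fun _ => by norm_num, fun _ => h⟩

open scoped Classical in
/-- If the alternating sum over a subcube does not vanish, the dimension of the subcube is at most
`s_0 * s_1`. -/
theorem dim_le_of_alt_sum_ne_zero {n k : ℕ} (f : (Fin n → Bool) → Bool) (x : Fin n → Bool)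
    (e : Fin k ↪ Fin n)
    (hne : ∑ q : Q k, sgn q * (if f (flip x (cubeSet e q)) ≠ f x then (1:ℤ) else 0) ≠ 0) :
    k ≤ sensOn f true * sensOn f false := by
  rcases k with _ | m
  · exact Nat.zero_le _
  have hprod : sensOn f (!(f x)) * sensOn f (f x) = sensOn f true * sensOn f false := by
    cases f x
    · simp
    · simp [mul_comm]
  rw [← hprod]
  refine abstract_bound (fun q => f (flip x (cubeSet e q)) ≠ f x) _ _ ?_ ?_ (by convert hne)
  · intro q hq S hS
    have h1 : f (flip x (cubeSet e q)) = !(f x) := by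
      cases h1 : f (flip x (cubeSet e q)) <;> cases h2 : f x <;> simp_all
    refine (card_adj_le f x e q S ?_).trans ?_
    · intro p hp
      obtain ⟨h2, h3⟩ := hS p hp
      refine ⟨h2, ?_⟩
      rw [not_not.mp h3, h1]
      cases f x <;> simp
    · have := sensAt_le_sensOn f (flip x (cubeSet e q))
      rwa [h1] at this
  · intro q hq S hS
    have h1 : f (flip x (cubeSet e q)) = f x := not_not.mp hq
    refine (card_adj_le f x e q S ?_).trans ?_
    · intro p hp
      obtain ⟨h2, h3⟩ := hS p hp
      refine ⟨h2, ?_⟩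
      rw [h1]
      exact h3
    · have := sensAt_le_sensOn f (flip x (cubeSet e q))
      rwa [h1] at this

end Vale.Agent.Helper25.BS
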