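import Mathlib

namespace Vale.Agent.Helper25.BS

open Polynomial Finset Real

open Polynomial.Chebyshev (node)

/-- sum of reciprocals at the Chebyshev nodes -/
lemma sum_inv_one_sub_node (n : ℕ) (hn : 1 ≤ n) :
    ∑ j ∈ Finset.Icc 1 n, (1 - node n j)⁻¹ = (2 * (n:ℝ)^2 + 1) / 6 := by
  obtain ⟨k, rfl⟩ : ∃ k, n = k + 1 := ⟨n - 1, by omega⟩
  have hU1 : (Chebyshev.U ℝ (k:ℤ)).eval 1 = (k:ℝ) + 1 := by
    rw [Chebyshev.U_eval_one]; push_cast; ring
  have hU1ne : (Chebyshev.U ℝ (k:ℤ)).eval 1 ≠ 0 := by rw [hU1]; positivity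
  have hsplit : (Chebyshev.U ℝ (k:ℤ)).Splits := by
    rw [Polynomial.splits_iff_card_roots, Chebyshev.roots_U_real]
    have hc := (Finset.range k).nodup_map_iff_injOn.mp (Chebyshev.roots_U_real_nodup k)
    simp only [Finset.card_val]
    rw [Finset.card_image_of_injOn hc, Finset.card_range, Chebyshev.natDegree_U_natCast]
  have h := hsplit.eval_derivative_div_eval_of_ne_zero hU1ne
  rw [Chebyshev.roots_U_real] at h
  have hc := (Finset.range k).nodup_map_iff_injOn.mp (Chebyshev.roots_U_real_nodup k)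
  have hsum : (Multiset.map (fun z : ℝ => 1 / (1 - z))
      ((Finset.range k).image (fun (k_1 : ℕ) => cos ((k_1 + 1) * π / (k + 1)))).val).sum
      = ∑ j ∈ Finset.range k, (1 - cos (((j:ℝ) + 1) * π / (k + 1)))⁻¹ := by
    have : (Multiset.map (fun z : ℝ => 1 / (1 - z))
      ((Finset.range k).image (fun (k_1 : ℕ) => cos ((k_1 + 1) * π / (k + 1)))).val).sum
      = ∑ z ∈ (Finset.range k).image (fun (k_1 : ℕ) => cos ((k_1 + 1) * π / (k + 1))), 1 / (1 - z) := rfl
    rw [this, Finset.sum_image hc]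
    simp [one_div]
  rw [hsum, hU1] at h
  have hd := Chebyshev.derivative_U_eval_one (R := ℝ) (k:ℤ)
  push_cast at hd
  have hsplit2 : Finset.Icc 1 (k+1) = insert (k+1) ((Finset.range k).image (fun j => j + 1)) := by
    ext x; simp only [Finset.mem_Icc, Finset.mem_insert, Finset.mem_image, Finset.mem_range]
    constructor
    · rintro ⟨h1, h2⟩
      by_cases hx : x = k + 1
      · left; exact hx
      · right; exact ⟨x - 1, by omega, by omega⟩
    · rintro (rfl | ⟨j, hj, rfl⟩) <;> omega
  rw [hsplit2, Finset.sum_insert (by simp), Finset.sum_image (by intro a _ b _ hab; simpa using hab)]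
  rw [Chebyshev.node_eq_neg_one (by omega)]
  have h3 : ∀ j ∈ Finset.range k, (1 - node (k+1) (j+1))⁻¹ = (1 - cos (((j:ℝ) + 1) * π / (k + 1)))⁻¹ := by
    intro j _; unfold Chebyshev.node; push_cast; rfl
  rw [Finset.sum_congr rfl h3, ← h]
  have hk : (k:ℝ) + 1 ≠ 0 := by positivity
  field_simp
  push_cast
  linear_combination 4 * hd


lemma one_sub_cos_bound (n : ℕ) (hn : 2 ≤ n) :
    24 ≤ (5 * (n:ℝ)^2 + 4) * (1 - cos (π / n)) := by
  rcases Nat.lt_or_ge n 4 with h | h
  · interval_cases n
    · rw [Nat.cast_ofNat, Real.cos_pi_div_two]; norm_num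
    · rw [Nat.cast_ofNat, Real.cos_pi_div_three]; norm_num
  · have hn4 : (4:ℝ) ≤ n := by exact_mod_cast h
    have hn0 : (0:ℝ) < n := by linarith
    set y : ℝ := π / n with hy
    have hpi1 := Real.pi_gt_d4
    have hpi2 := Real.pi_lt_d4
    have hypos : 0 < y := by positivity
    have hyle : y ≤ π / 4 := by
      rw [hy]; gcongr
    have hy1 : |y| ≤ 1 := by
      rw [abs_of_pos hypos]; linarith
    have hb := Real.cos_bound hy1
    rw [abs_of_pos hypos] at hb
    have hb2 := (abs_le.mp hb).2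
    have hny : (n:ℝ) * y = π := by rw [hy]; field_simp
    have h1 : y^2/2 - y^4 * (5/96) ≤ 1 - cos y := by linarith
    have hpos : 0 < 5 * (n:ℝ)^2 + 4 := by positivity
    have h2 : (5 * (n:ℝ)^2 + 4) * (y^2/2 - y^4 * (5/96)) ≤ (5 * (n:ℝ)^2 + 4) * (1 - cos y) :=
      mul_le_mul_of_nonneg_left h1 hpos.le
    refine le_trans ?_ h2
    have h3 : (5 * (n:ℝ)^2 + 4) * (y^2/2 - y^4 * (5/96))
        = (5 * ((n:ℝ)*y)^2 + 4 * y^2) * (1/2 - y^2 * (5/96)) := by ring
    rw [h3, hny]
    have hy2 : y^2 ≤ 0.6169 := by nlinarith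
    have hy20 : 0 ≤ y^2 := by positivity
    have hpi3 : 9.869 ≤ π^2 := by nlinarith
    nlinarith [mul_nonneg hy20 (sub_nonneg.mpr hy2)]

lemma inv_one_sub_node_le (n : ℕ) (hn : 2 ≤ n) (i : ℕ) (hi1 : 1 ≤ i) (hin : i ≤ n) :
    (1 - node n i)⁻¹ ≤ (5 * (n:ℝ)^2 + 4) / 24 := by
  have h1 : node n i ≤ node n 1 := by
    rcases Nat.eq_or_lt_of_le hi1 with h | h
    · rw [← h]
    · exact (Chebyshev.node_lt hin h).le
  have hb := one_sub_cos_bound n hn
  have hnode : node n 1 = cos (π / n) := by unfold Chebyshev.node; simp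
  rw [← hnode] at hb
  have hpos : (0:ℝ) < 5 * (n:ℝ)^2 + 4 := by positivity
  have h2 : 0 < 1 - node n 1 := by
    by_contra hcon
    push Not at hcon
    nlinarith
  have h3 : (1 - node n i)⁻¹ ≤ (1 - node n 1)⁻¹ := by
    apply inv_anti₀ h2; linarith
  refine h3.trans ?_
  rw [inv_le_comm₀ h2 (by positivity)]
  rw [inv_div, div_le_iff₀ hpos]
  linarith

/-- The combined first and second derivative inequality at the endpoint. -/
theorem endpoint_ineq (n : ℕ) (hn : 2 ≤ n) (P : ℝ[X]) (hPdeg : P.natDegree ≤ n)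
    (hP1 : P.eval 1 = 1) (hPbnd : ∀ x ∈ Set.Icc (-1:ℝ) 1, |P.eval x| ≤ 1) :
    (derivative (derivative P)).eval 1 - (n:ℝ)^2/4 * (derivative P).eval 1
      ≤ (n:ℝ)^2 * ((n:ℝ)^2 - 1) / 3 - (n:ℝ)^4/4 := by
  classical
  set T := Chebyshev.T ℝ (n:ℤ) with hT
  set Q := T - P with hQ
  have hTdeg : T.natDegree ≤ n := by rw [hT, Chebyshev.natDegree_T]; simp
  have hQdeg : Q.natDegree ≤ n := (natDegree_sub_le _ _).trans (max_le hTdeg hPdeg)
  have hQ1 : Q.eval 1 = 0 := by
    rw [hQ, eval_sub, hT, Chebyshev.T_eval_one, hP1, sub_self]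
  obtain ⟨R, hR⟩ := dvd_iff_isRoot.mpr (show IsRoot Q 1 from hQ1)
  have hRdeg : R.degree < (n:ℕ) := by
    by_cases hR0 : R = 0
    · rw [hR0, degree_zero]; exact WithBot.bot_lt_coe _
    · have hd : Q.natDegree = 1 + R.natDegree := by
        rw [hR, natDegree_mul (X_sub_C_ne_zero 1) hR0, natDegree_X_sub_C]
      rw [degree_eq_natDegree hR0]
      have : R.natDegree < n := by omega
      exact_mod_cast this
  -- derivatives of Q at 1
  have hQd1 : (derivative Q).eval 1 = R.eval 1 := by
    rw [hR]; simp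
  have hQd2 : (derivative (derivative Q)).eval 1 = 2 * (derivative R).eval 1 := by
    rw [hR]; simp; ring
  -- interpolation
  set s := Finset.Icc 1 n with hs
  have hcard : s.card = n := by rw [hs]; simp
  have hinj : Set.InjOn (node n) s := by
    apply (Chebyshev.strictAntiOn_node n).injOn.mono
    intro x hx
    simp only [hs, Finset.coe_Icc, Set.mem_Icc] at hx
    simp only [Finset.coe_range, Set.mem_Iio]; omega
  have hinterp := Lagrange.eq_interpolate hinj (f := R) (by rw [hcard]; exact hRdeg)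
  rw [Lagrange.interpolate_eq_sum] at hinterp
  set w : ℕ → ℝ := fun i => R.eval (node n i) / ∏ j ∈ s.erase i, (node n i - node n j) with hw
  have hlt1 : ∀ j ∈ s, node n j < 1 := by
    intro j hj
    have hj' := Finset.mem_Icc.mp hj
    rw [← Chebyshev.node_eq_one (n := n)]
    exact Chebyshev.node_lt hj'.2 (by omega)
  have hR1 : R.eval 1 = ∑ i ∈ s, w i * ∏ j ∈ s.erase i, (1 - node n j) := by
    rw [hinterp]
    simp only [eval_finsetSum, eval_mul, eval_C, eval_prod, eval_sub, eval_X]
    apply Finset.sum_congr rfl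
    intro i hi
    congr 1
  have hR2 : (derivative R).eval 1
      = ∑ i ∈ s, w i * ((∏ j ∈ s.erase i, (1 - node n j)) *
          ∑ l ∈ s.erase i, (1 - node n l)⁻¹) := by
    conv_lhs => rw [hinterp]
    simp only [derivative_sum, derivative_C_mul, eval_finsetSum, eval_mul, eval_C]
    apply Finset.sum_congr rfl
    intro i hi
    rw [derivative_prod_finset]
    simp only [eval_finsetSum, eval_mul, eval_prod, eval_sub, eval_X, eval_C,
      derivative_X_sub_C, eval_one, mul_one]
    congr 1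
    rw [Finset.mul_sum]
    apply Finset.sum_congr rfl
    intro l hl
    have hl1 : (1 - node n l) ≠ 0 := by
      have := hlt1 l (Finset.mem_of_mem_erase hl); linarith
    rw [← Finset.mul_prod_erase (s.erase i) (fun j => (1 - node n j)) hl]
    field_simp
  have hwnn : ∀ i ∈ s, 0 ≤ w i := by
    intro i hi
    have hi' := Finset.mem_Icc.mp hi
    have hfull : ∏ j ∈ (Finset.range (n + 1)).erase i, (node n i - node n j)
        = (node n i - 1) * ∏ j ∈ s.erase i, (node n i - node n j) := by
      have : (Finset.range (n + 1)).erase i = insert 0 (s.erase i) := by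
        ext x; simp only [Finset.mem_erase, Finset.mem_range, Finset.mem_insert, hs, Finset.mem_Icc]
        omega
      rw [this, Finset.prod_insert (by simp [hs]), Chebyshev.node_eq_one]
    have hpos := Chebyshev.zero_lt_prod_node_sub_node (n := n) (i := i) hi'.2
    rw [hfull] at hpos
    have hQi : Q.eval (node n i) = (node n i - 1) * R.eval (node n i) := by
      rw [hR]; simp
    have hQi2 : 0 ≤ (-1:ℝ)^i * Q.eval (node n i) := by
      rw [hQ, eval_sub, hT, Chebyshev.eval_T_real_node (Finset.mem_Iic.mpr hi'.2)]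
      have h1 := hPbnd (node n i) Chebyshev.node_mem_Icc
      rcases neg_one_pow_eq_or ℝ i with h | h <;> rw [h] <;> have := abs_le.mp h1 <;> linarith
    have hlt := hlt1 i hi
    rw [hw]; simp only
    set D := ∏ j ∈ s.erase i, (node n i - node n j) with hD
    rw [hQi] at hQi2
    have hne : node n i - 1 < 0 := by linarith
    rcases neg_one_pow_eq_or ℝ i with h | h <;> rw [h] at hpos hQi2
    · have hDneg : D < 0 := by nlinarith
      have hRneg : R.eval (node n i) ≤ 0 := by nlinarith
      exact div_nonneg_of_nonpos hRneg hDneg.le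
    · have hDpos : 0 < D := by nlinarith
      have hRpos : 0 ≤ R.eval (node n i) := by nlinarith
      exact div_nonneg hRpos hDpos.le
  have hkey : 0 ≤ (derivative (derivative Q)).eval 1 - (n:ℝ)^2/4 * (derivative Q).eval 1 := by
    rw [hQd1, hQd2, hR1, hR2, Finset.mul_sum, Finset.mul_sum, ← Finset.sum_sub_distrib]
    apply Finset.sum_nonneg
    intro i hi
    have hi' := Finset.mem_Icc.mp hi
    have hPi : 0 < ∏ j ∈ s.erase i, (1 - node n j) := by
      apply Finset.prod_pos
      intro j hj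
      have := hlt1 j (Finset.mem_of_mem_erase hj); linarith
    have hsum := sum_inv_one_sub_node n (by omega)
    rw [← hs, ← Finset.add_sum_erase s _ hi] at hsum
    have hb := inv_one_sub_node_le n hn i hi'.1 hi'.2
    have hbr : (n:ℝ)^2/8 ≤ ∑ l ∈ s.erase i, (1 - node n l)⁻¹ := by nlinarith
    have h1 := hwnn i hi
    have h2 : 0 ≤ w i * (∏ j ∈ s.erase i, (1 - node n j)) := by positivity
    have : 2 * (w i * ((∏ j ∈ s.erase i, (1 - node n j)) * ∑ l ∈ s.erase i, (1 - node n l)⁻¹))
        - (n:ℝ)^2/4 * (w i * ∏ j ∈ s.erase i, (1 - node n j))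
        = (w i * (∏ j ∈ s.erase i, (1 - node n j))) *
          (2 * ∑ l ∈ s.erase i, (1 - node n l)⁻¹ - (n:ℝ)^2/4) := by ring
    rw [this]
    apply mul_nonneg h2
    linarith
  have hT1 : (derivative T).eval 1 = (n:ℝ)^2 := by
    rw [hT, Chebyshev.derivative_T_eval_one]; push_cast; ring
  have hT2 : (derivative (derivative T)).eval 1 = (n:ℝ)^2 * ((n:ℝ)^2 - 1) / 3 := by
    have h := Chebyshev.iterate_derivative_T_eval_one_recurrence (R := ℝ) (n:ℤ) 1
    simp only [Function.iterate_succ, Function.comp, Function.iterate_zero, id] at h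
    rw [← hT, hT1] at h
    push_cast at h
    linarith
  have hPQ : P = T - Q := by rw [hQ]; ring
  have e1 : (derivative P).eval 1 = (derivative T).eval 1 - (derivative Q).eval 1 := by
    rw [hPQ]; simp
  have e2 : (derivative (derivative P)).eval 1
      = (derivative (derivative T)).eval 1 - (derivative (derivative Q)).eval 1 := by
    rw [hPQ]; simp
  rw [e1, e2, hT1, hT2]
  nlinarith

end Vale.Agent.Helper25.BS
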