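import Mathlib
import Vale.Agent.Helper25.BSDefs
import Vale.Agent.Helper25.DegBound
import Vale.Agent.Helper25.Cheb

namespace Vale.Agent.Helper25.BS

open Finset Vale.Agent.Helper25.Huang

section moebius

variable {α : Type*} [DecidableEq α] {R : Type*} [CommRing R]

/-- Moebius difference -/
def mdiff (F : Finset α → R) (S : Finset α) : R :=
  ∑ T ∈ S.powerset, (-1) ^ (S.card - T.card) * F T

lemma mdiff_insert (F : Finset α → R) (S : Finset α) {a : α} (ha : a ∉ S) :
    mdiff F (insert a S) = mdiff (fun T => F (insert a T)) S - mdiff F S := by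
  unfold mdiff
  rw [Finset.sum_powerset_insert ha]
  have h1 : ∀ T ∈ S.powerset, (-1:R) ^ ((insert a S).card - T.card) * F T
      = - ((-1) ^ (S.card - T.card) * F T) := by
    intro T hT
    have hTS := Finset.card_le_card (Finset.mem_powerset.mp hT)
    rw [Finset.card_insert_of_notMem ha, Nat.sub_add_comm hTS, pow_succ]
    ring
  have h2 : ∀ T ∈ S.powerset, (-1:R) ^ ((insert a S).card - (insert a T).card) * F (insert a T)
      = (-1) ^ (S.card - T.card) * F (insert a T) := by
    intro T hT
    have haT : a ∉ T := fun h => ha (Finset.mem_powerset.mp hT h)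
    rw [Finset.card_insert_of_notMem ha, Finset.card_insert_of_notMem haT,
      Nat.add_sub_add_right]
  rw [Finset.sum_congr rfl h1, Finset.sum_congr rfl h2, Finset.sum_neg_distrib]
  ring

lemma sum_mdiff (F : Finset α → R) (U : Finset α) :
    ∑ S ∈ U.powerset, mdiff F S = F U := by
  induction U using Finset.induction_on generalizing F with
  | empty => simp [mdiff]
  | insert a U ha ih =>
    rw [Finset.sum_powerset_insert ha]
    have h2 : ∀ S ∈ U.powerset, mdiff F (insert a S)
        = mdiff (fun T => F (insert a T)) S - mdiff F S := by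
      intro S hS
      exact mdiff_insert F S (fun h => ha (Finset.mem_powerset.mp hS h))
    rw [Finset.sum_congr rfl h2, Finset.sum_sub_distrib, ih, ih]
    ring

/-- alternating sum over sets containing a free element vanishes -/
lemma alt_sum_eq_zero (S : Finset α) {a : α} (ha : a ∈ S) (p : Finset α → R)
    (hp : ∀ T, a ∉ T → p (insert a T) = p T) :
    ∑ T ∈ S.powerset, (-1) ^ (S.card - T.card) * p T = 0 := by
  obtain ⟨S', haS', rfl⟩ : ∃ S', a ∉ S' ∧ insert a S' = S :=
    ⟨S.erase a, Finset.notMem_erase a S, Finset.insert_erase ha⟩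
  have := mdiff_insert p S' haS'
  unfold mdiff at this
  rw [this, sub_eq_zero]
  apply Finset.sum_congr rfl
  intro T hT
  have h3 := hp T (fun h => haS' (Finset.mem_powerset.mp hT h))
  beta_reduce
  rw [h3]

end moebius

lemma sgn_eq_pow {k : ℕ} (q : Q k) :
    sgn q = (-1) ^ (Finset.univ.filter (fun i => q i = true)).card := by
  unfold sgn
  rw [Finset.prod_ite]
  simp

/-- indicator of a change of value -/
def chg {n : ℕ} (f : (Fin n → Bool) → Bool) (x : Fin n → Bool) (U : Finset (Fin n)) : ℤ :=
  if f (flip x U) ≠ f x then 1 else 0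

lemma alt_sum_convert {n : ℕ} (h : Finset (Fin n) → ℤ) (V : Finset (Fin n)) :
    ∃ e : Fin V.card ↪ Fin n,
      ∑ q : Q V.card, sgn q * h (cubeSet e q) = ∑ U ∈ V.powerset, (-1) ^ U.card * h U := by
  classical
  let e : Fin V.card ↪ Fin n := (V.orderEmbOfFin rfl).toEmbedding
  refine ⟨e, ?_⟩
  have hV : ∀ i, e i ∈ V := fun i => V.orderEmbOfFin_mem rfl i
  have hsurj : ∀ a ∈ V, ∃ i, e i = a := by
    intro a ha
    have := V.range_orderEmbOfFin rfl
    have h2 : a ∈ Set.range (V.orderEmbOfFin rfl) := by rw [this]; exact ha
    exact h2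
  refine Finset.sum_nbij' (fun q => cubeSet e q) (fun U i => decide (e i ∈ U)) ?_ ?_ ?_ ?_ ?_
  · intro q _
    rw [Finset.mem_powerset]
    intro a ha
    obtain ⟨i, _, rfl⟩ := Finset.mem_map.mp ha
    exact hV i
  · intro U _; exact Finset.mem_univ _
  · intro q _
    funext i
    unfold cubeSet
    simp
  · intro U hU
    ext a
    unfold cubeSet
    simp only [Finset.mem_map, Finset.mem_filter, Finset.mem_univ, true_and, decide_eq_true_eq]
    constructor
    · rintro ⟨i, hi, rfl⟩; exact hi
    · intro ha
      obtain ⟨i, hi⟩ := hsurj a (Finset.mem_powerset.mp hU ha)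
      exact ⟨i, by rw [hi]; exact ha, hi⟩
  · intro q _
    rw [sgn_eq_pow]
    unfold cubeSet
    rw [Finset.card_map]

lemma mdiff_chg_eq_zero {n : ℕ} (f : (Fin n → Bool) → Bool) (x : Fin n → Bool)
    (V : Finset (Fin n)) (hV : sensOn f true * sensOn f false < V.card) :
    mdiff (chg f x) V = 0 := by
  obtain ⟨e, he⟩ := alt_sum_convert (chg f x) V
  by_contra hne
  have h1 : mdiff (chg f x) V = (-1) ^ V.card * ∑ U ∈ V.powerset, (-1) ^ U.card * chg f x U := by
    unfold mdiff
    rw [Finset.mul_sum]
    apply Finset.sum_congr rfl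
    intro U hU
    have hUV := Finset.card_le_card (Finset.mem_powerset.mp hU)
    rw [← mul_assoc, ← pow_add]
    congr 1
    have : V.card + U.card = (V.card - U.card) + 2 * U.card := by omega
    rw [this, pow_add, pow_mul]
    simp
  have h2 : ∑ U ∈ V.powerset, (-1) ^ U.card * chg f x U ≠ 0 := by
    intro h; rw [h, mul_zero] at h1; exact hne h1
  rw [← he] at h2
  have := dim_le_of_alt_sum_ne_zero f x e (by simpa [chg] using h2)
  omega

/-- block version of the change indicator -/
def bchg {n m : ℕ} (f : (Fin n → Bool) → Bool) (x : Fin n → Bool) (B : Fin m → Finset (Fin n))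
    (T : Finset (Fin m)) : ℤ := chg f x (T.biUnion B)

lemma mdiff_bchg_eq_zero {n m : ℕ} (f : (Fin n → Bool) → Bool) (x : Fin n → Bool)
    (B : Fin m → Finset (Fin n)) (hB : ∀ i j, i ≠ j → Disjoint (B i) (B j))
    (S : Finset (Fin m)) (hS : sensOn f true * sensOn f false < S.card) :
    mdiff (bchg f x B) S = 0 := by
  classical
  set d := sensOn f true * sensOn f false with hd
  unfold mdiff bchg
  have h1 : ∀ T ∈ S.powerset, (-1:ℤ) ^ (S.card - T.card) * chg f x (T.biUnion B)
      = ∑ V ∈ (S.biUnion B).powerset, mdiff (chg f x) V *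
        ((-1) ^ (S.card - T.card) * (if V ⊆ T.biUnion B then 1 else 0)) := by
    intro T hT
    have hsub : (T.biUnion B).powerset ⊆ (S.biUnion B).powerset :=
      Finset.powerset_mono.mpr (Finset.biUnion_subset_biUnion_of_subset_left B
        (Finset.mem_powerset.mp hT))
    rw [← sum_mdiff (chg f x) (T.biUnion B), Finset.mul_sum]
    rw [← Finset.sum_subset hsub]
    · apply Finset.sum_congr rfl
      intro V hV
      rw [if_pos (Finset.mem_powerset.mp hV)]; ring
    · intro V _ hV
      rw [if_neg (fun h => hV (Finset.mem_powerset.mpr h))]; ring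
  rw [Finset.sum_congr rfl h1, Finset.sum_comm]
  apply Finset.sum_eq_zero
  intro V hV
  rw [← Finset.mul_sum]
  by_cases hcard : d < V.card
  · rw [mdiff_chg_eq_zero f x V (by rw [← hd]; exact hcard), zero_mul]
  · -- some block of `S` misses `V`
    have hex : ∃ j ∈ S, Disjoint V (B j) := by
      by_contra hcon
      push Not at hcon
      have hch : ∀ j : Fin m, ∃ a : Fin n, j ∈ S → (a ∈ V ∧ a ∈ B j) := by
        intro j
        by_cases hj : j ∈ S
        · have := hcon j hj
          rw [Finset.not_disjoint_iff] at this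
          obtain ⟨a, ha⟩ := this
          exact ⟨a, fun _ => ha⟩
        · by_cases hne : Nonempty (Fin n)
          · exact ⟨hne.some, fun h => absurd h hj⟩
          · exfalso
            obtain ⟨j', hj'⟩ : S.Nonempty := by
              rw [← Finset.card_pos]; omega
            have := hcon j' hj'
            rw [Finset.not_disjoint_iff] at this
            obtain ⟨a, _⟩ := this
            exact hne ⟨a⟩
      choose g hg using hch
      have hinj : Set.InjOn g S := by
        intro i hi j hj hij
        by_contra hne
        have := Finset.disjoint_left.mp (hB i j hne) (hg i hi).2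
        rw [hij] at this
        exact this (hg j hj).2
      have := Finset.card_le_card_of_injOn g (fun j hj => (hg j hj).1) hinj
      omega
    obtain ⟨j, hjS, hjV⟩ := hex
    rw [alt_sum_eq_zero S hjS, mul_zero]
    intro T hjT
    have : (V ⊆ (insert j T).biUnion B) ↔ (V ⊆ T.biUnion B) := by
      rw [Finset.biUnion_insert]
      constructor
      · intro h a ha
        rcases Finset.mem_union.mp (h ha) with h' | h'
        · exact absurd h' (Finset.disjoint_left.mp hjV ha)
        · exact h'
      · intro h a ha
        exact Finset.mem_union_right _ (h ha)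
    simp only [this]

end Vale.Agent.Helper25.BS
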