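import Mathlib
import Vale.Agent.Helper25.BSDefs
import Vale.Agent.Helper25.DegBound
import Vale.Agent.Helper25.Cheb
import Vale.Agent.Helper25.BlockPoly

namespace Vale.Agent.Helper25.BS

open Finset Polynomial

section bern

variable {α : Type*} [DecidableEq α]

lemma sum_mdiff_pow (F : Finset α → ℝ) (t : ℝ) (U : Finset α) :
    ∑ S ∈ U.powerset, mdiff F S * t ^ S.card
      = ∑ T ∈ U.powerset, F T * (t ^ T.card * (1 - t) ^ (U.card - T.card)) := by
  induction U using Finset.induction_on generalizing F with
  | empty => simp [mdiff]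
  | insert a U ha ih =>
    rw [Finset.sum_powerset_insert ha, Finset.sum_powerset_insert ha]
    have h1 : ∀ S ∈ U.powerset, mdiff F (insert a S) * t ^ (insert a S).card
        = t * (mdiff (fun T => F (insert a T)) S * t ^ S.card) - t * (mdiff F S * t ^ S.card) := by
      intro S hS
      have haS : a ∉ S := fun h => ha (Finset.mem_powerset.mp hS h)
      rw [mdiff_insert F S haS, Finset.card_insert_of_notMem haS, pow_succ]
      ring
    have h2 : ∀ T ∈ U.powerset, F T * (t ^ T.card * (1 - t) ^ ((insert a U).card - T.card))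
        = (1 - t) * (F T * (t ^ T.card * (1 - t) ^ (U.card - T.card))) := by
      intro T hT
      have hTU := Finset.card_le_card (Finset.mem_powerset.mp hT)
      rw [Finset.card_insert_of_notMem ha, Nat.sub_add_comm hTU, pow_succ]
      ring
    have h3 : ∀ T ∈ U.powerset,
        F (insert a T) * (t ^ (insert a T).card * (1 - t) ^ ((insert a U).card - (insert a T).card))
        = t * (F (insert a T) * (t ^ T.card * (1 - t) ^ (U.card - T.card))) := by
      intro T hT
      have haT : a ∉ T := fun h => ha (Finset.mem_powerset.mp hT h)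
      rw [Finset.card_insert_of_notMem ha, Finset.card_insert_of_notMem haT,
        Nat.add_sub_add_right, pow_succ]
      ring
    rw [Finset.sum_congr rfl h1, Finset.sum_congr rfl h2, Finset.sum_congr rfl h3,
      Finset.sum_sub_distrib, ← Finset.mul_sum, ← Finset.mul_sum, ← Finset.mul_sum,
      ← Finset.mul_sum, ih, ih]
    ring

end bern

/-- the univariate polynomial of a set function -/
noncomputable def upoly {m : ℕ} (F : Finset (Fin m) → ℝ) : ℝ[X] :=
  ∑ S ∈ (Finset.univ : Finset (Fin m)).powerset, C (mdiff F S) * X ^ S.card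

lemma upoly_eval {m : ℕ} (F : Finset (Fin m) → ℝ) (t : ℝ) :
    (upoly F).eval t = ∑ T ∈ (Finset.univ : Finset (Fin m)).powerset,
      F T * (t ^ T.card * (1 - t) ^ (m - T.card)) := by
  unfold upoly
  rw [Polynomial.eval_finsetSum]
  simp only [eval_mul, eval_C, eval_pow, eval_X]
  rw [sum_mdiff_pow]
  simp

lemma upoly_bounds {m : ℕ} (F : Finset (Fin m) → ℝ) (h0 : ∀ T, 0 ≤ F T) (h1 : ∀ T, F T ≤ 1)
    (t : ℝ) (ht0 : 0 ≤ t) (ht1 : t ≤ 1) : 0 ≤ (upoly F).eval t ∧ (upoly F).eval t ≤ 1 := by
  rw [upoly_eval]
  have hw : ∀ T : Finset (Fin m), 0 ≤ t ^ T.card * (1 - t) ^ (m - T.card) := fun T =>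
    mul_nonneg (pow_nonneg ht0 _) (pow_nonneg (by linarith) _)
  constructor
  · exact Finset.sum_nonneg (fun T _ => mul_nonneg (h0 T) (hw T))
  · have hs := Finset.sum_pow_mul_eq_add_pow t (1 - t) (Finset.univ : Finset (Fin m))
    calc ∑ T ∈ (Finset.univ : Finset (Fin m)).powerset,
          F T * (t ^ T.card * (1 - t) ^ (m - T.card))
        ≤ ∑ T ∈ (Finset.univ : Finset (Fin m)).powerset,
          t ^ T.card * (1 - t) ^ (m - T.card) := by
          apply Finset.sum_le_sum
          intro T _
          have := mul_le_mul_of_nonneg_right (h1 T) (hw T)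
          linarith
      _ = 1 := by
          rw [Finset.card_univ, Fintype.card_fin] at hs
          rw [hs]; simp

lemma upoly_coeff {m : ℕ} (F : Finset (Fin m) → ℝ) (k : ℕ) :
    (upoly F).coeff k = ∑ S ∈ (Finset.univ : Finset (Fin m)).powersetCard k, mdiff F S := by
  unfold upoly
  rw [Polynomial.finsetSum_coeff]
  simp only [coeff_C_mul, coeff_X_pow]
  rw [Finset.powersetCard_eq_filter, Finset.sum_filter]
  apply Finset.sum_congr rfl
  intro S _
  by_cases h : k = S.card
  · rw [if_pos h, if_pos h.symm, mul_one]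
  · rw [if_neg h, if_neg (fun h' => h h'.symm), mul_zero]


/-- main estimate for a set function with values in `[0,1]` and low degree -/
lemma setfun_bound {m d : ℕ} (F : Finset (Fin m) → ℝ) (h0 : ∀ T, 0 ≤ F T) (h1 : ∀ T, F T ≤ 1)
    (hempty : F ∅ = 0) (hsingle : ∀ j, F {j} = 1)
    (hdeg : ∀ S : Finset (Fin m), d < S.card → mdiff F S = 0) :
    1000 * (m : ℝ) ≤ 729 * (d : ℝ) ^ 2 + 271 := by
  have hc0 : (upoly F).coeff 0 = 0 := by
    rw [upoly_coeff]; simp [mdiff, hempty]
  have hm1 : ∀ j : Fin m, mdiff F {j} = 1 := by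
    intro j
    have h := mdiff_insert F ∅ (Finset.notMem_empty j)
    simp only [insert_empty_eq] at h
    rw [h]
    simp [mdiff, hempty, hsingle]
  have hc1 : (upoly F).coeff 1 = m := by
    rw [upoly_coeff, Finset.powersetCard_one, Finset.sum_map]
    simp [hm1]
  have hm2 : ∀ S ∈ (Finset.univ : Finset (Fin m)).powersetCard 2, mdiff F S ≤ -1 := by
    intro S hS
    obtain ⟨a, b, hab, rfl⟩ := Finset.card_eq_two.mp (Finset.mem_powersetCard.mp hS).2
    have hanb : a ∉ ({b} : Finset (Fin m)) := by simpa using hab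
    rw [mdiff_insert F {b} hanb, hm1 b]
    have h := mdiff_insert (fun T => F (insert a T)) ∅ (Finset.notMem_empty b)
    simp only [insert_empty_eq] at h
    rw [h]
    have e1 : mdiff (fun T => F (insert a (insert b T))) ∅ = F {a, b} := by simp [mdiff]
    have e2 : mdiff (fun T => F (insert a T)) ∅ = 1 := by simp [mdiff, hsingle]
    rw [e1, e2]
    have := h1 {a, b}
    linarith
  have hc2 : (upoly F).coeff 2 ≤ -((m : ℝ) * (m - 1) / 2) := by
    rw [upoly_coeff]
    calc ∑ S ∈ (Finset.univ : Finset (Fin m)).powersetCard 2, mdiff F S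
        ≤ ∑ S ∈ (Finset.univ : Finset (Fin m)).powersetCard 2, (-1 : ℝ) :=
          Finset.sum_le_sum hm2
      _ = -((m : ℝ) * (m - 1) / 2) := by
          rw [Finset.sum_const, Finset.card_powersetCard, Finset.card_univ, Fintype.card_fin,
            nsmul_eq_mul, Nat.cast_choose_two]
          ring
  have hnat : (upoly F).natDegree ≤ d := by
    rw [Polynomial.natDegree_le_iff_coeff_eq_zero]
    intro k hk
    rw [upoly_coeff]
    apply Finset.sum_eq_zero
    intro S hS
    apply hdeg
    rw [(Finset.mem_powersetCard.mp hS).2]; exact hk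
  rcases Nat.lt_or_ge d 2 with hd | hd
  · -- degree at most one
    have hd1 : (upoly F).natDegree ≤ 1 := by omega
    have hform := Polynomial.eq_X_add_C_of_natDegree_le_one hd1
    have hev : (upoly F).eval 1 = m := by
      rw [hform, hc0, hc1]; simp
    have hb := (upoly_bounds F h0 h1 1 (by norm_num) le_rfl).2
    rw [hev] at hb
    interval_cases d
    · have hz : (upoly F).coeff 1 = 0 :=
        Polynomial.coeff_eq_zero_of_natDegree_lt (by omega)
      rw [hc1] at hz
      rw [hz]; norm_num
    · simp only [Nat.cast_one, one_pow, mul_one]; linarith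
  · set P : ℝ[X] := 1 - C 2 * (upoly F).comp (C (1/2) - C (1/2) * X) with hP
    have hder : derivative P = (derivative (upoly F)).comp (C (1/2) - C (1/2) * X) := by
      rw [hP]
      simp only [derivative_sub, derivative_one, derivative_mul, derivative_C, derivative_comp,
        derivative_X, zero_mul, zero_add, zero_sub, mul_one]
      rw [show (-C (1/2 : ℝ) : ℝ[X]) = -(C (1/2)) from rfl]
      rw [show C (2:ℝ) * (-C (1/2 : ℝ) * (derivative (upoly F)).comp (C (1/2) - C (1/2) * X))
        = -((C (2:ℝ) * C (1/2)) * (derivative (upoly F)).comp (C (1/2) - C (1/2) * X)) by ring]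
      rw [← C_mul]; norm_num
    have hder2 : derivative (derivative P)
        = -C (1/2) * (derivative (derivative (upoly F))).comp (C (1/2) - C (1/2) * X) := by
      rw [hder]
      simp only [derivative_sub, derivative_mul, derivative_C, derivative_comp,
        derivative_X, zero_mul, zero_add, zero_sub, mul_one]
    have hPdeg : P.natDegree ≤ d := by
      rw [hP]
      refine (Polynomial.natDegree_sub_le _ _).trans ?_
      refine max_le (by simp) ?_
      refine (Polynomial.natDegree_C_mul_le _ _).trans ?_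
      rw [Polynomial.natDegree_comp]
      have h2 : (C (1/2 : ℝ) - C (1/2) * X : ℝ[X]).natDegree ≤ 1 := by
        refine (Polynomial.natDegree_sub_le _ _).trans ?_
        refine max_le (by simp) ?_
        exact (Polynomial.natDegree_C_mul_le _ _).trans (by simp)
      calc (upoly F).natDegree * _ ≤ d * 1 := Nat.mul_le_mul hnat h2
        _ = d := mul_one d
    have hP1 : P.eval 1 = 1 := by
      rw [hP]
      simp only [eval_sub, eval_one, eval_mul, eval_C, eval_comp, eval_X]
      norm_num
      rw [← Polynomial.coeff_zero_eq_eval_zero, hc0]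
    have hPb : ∀ x ∈ Set.Icc (-1 : ℝ) 1, |P.eval x| ≤ 1 := by
      intro x hx
      have hb := upoly_bounds F h0 h1 (1/2 - 1/2 * x) (by linarith [hx.2]) (by linarith [hx.1])
      rw [hP]
      simp only [eval_sub, eval_one, eval_mul, eval_C, eval_comp, eval_X]
      rw [abs_le]
      constructor <;> linarith [hb.1, hb.2]
    have hmain := endpoint_ineq d hd P hPdeg hP1 hPb
    have hd1 : (derivative P).eval 1 = m := by
      rw [hder]
      simp only [eval_comp, eval_sub, eval_mul, eval_C, eval_X]
      norm_num
      rw [← Polynomial.coeff_zero_eq_eval_zero, Polynomial.coeff_derivative]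
      simp [hc1]
    have hd2 : (m : ℝ) * (m - 1) / 2 ≤ (derivative (derivative P)).eval 1 := by
      rw [hder2]
      simp only [eval_mul, eval_neg, eval_comp, eval_sub, eval_C, eval_X]
      have : ((1:ℝ)/2 - 1/2 * 1) = 0 := by norm_num
      rw [this, ← Polynomial.coeff_zero_eq_eval_zero, Polynomial.coeff_derivative,
        Polynomial.coeff_derivative]
      norm_num
      linarith
    rw [hd1] at hmain
    have hD : (4 : ℝ) ≤ (d : ℝ) ^ 2 := by
      have : (2 : ℝ) ≤ d := by exact_mod_cast hd
      nlinarith
    set D : ℝ := (d : ℝ) ^ 2 with hDdef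
    have h4 : (d : ℝ) ^ 4 = D ^ 2 := by rw [hDdef]; ring
    rw [h4] at hmain
    by_contra hcon
    push Not at hcon
    have hm : (0.729 * D + 0.271) < m := by linarith
    have hmm : (m : ℝ) * (m - 1) / 2 - D / 4 * m ≤ D * (D - 1) / 3 - D ^ 2 / 4 := by linarith
    nlinarith [mul_pos (sub_pos.mpr hm) (sub_pos.mpr hm), mul_nonneg (sub_nonneg.mpr hD)
      (sub_pos.mpr hm).le, mul_nonneg (sub_nonneg.mpr hD) (sub_nonneg.mpr hD)]

end Vale.Agent.Helper25.BS
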