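import Mathlib
import Vale.Agent.Helper25.BSDefs
import Vale.Agent.Helper25.DegBound
import Vale.Agent.Helper25.PolyPart

namespace Vale.Agent.Helper25.BS

open Finset

lemma mdiff_cast {m : ℕ} (G : Finset (Fin m) → ℤ) (S : Finset (Fin m)) :
    mdiff (fun T => (G T : ℝ)) S = ((mdiff G S : ℤ) : ℝ) := by
  unfold mdiff
  push_cast
  rfl

lemma flip_empty {n : ℕ} (x : Fin n → Bool) : flip x ∅ = x := by
  funext i; simp [flip]

theorem blocks_bound {n m : ℕ} (f : (Fin n → Bool) → Bool) (x : Fin n → Bool)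
    (B : Fin m → Finset (Fin n)) (hdisj : ∀ i j, i ≠ j → Disjoint (B i) (B j))
    (hB : ∀ j, f (flip x (B j)) ≠ f x) :
    1000 * m ≤ 729 * (sensOn f true * sensOn f false) ^ 2 + 271 := by
  have h := setfun_bound (m := m) (d := sensOn f true * sensOn f false)
    (fun T => ((bchg f x B T : ℤ) : ℝ)) ?_ ?_ ?_ ?_ ?_
  · exact_mod_cast h
  · intro T
    unfold bchg chg
    split_ifs <;> norm_num
  · intro T
    unfold bchg chg
    split_ifs <;> norm_num
  · simp [bchg, chg, flip_empty]
  · intro j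
    simp [bchg, chg, hB j]
  · intro S hS
    rw [mdiff_cast, mdiff_bchg_eq_zero f x B hdisj S hS]
    norm_num

theorem bs_bound {n : ℕ} (f : (Fin n → Bool) → Bool) :
    1000 * bs f ≤ 729 * (sensOn f true * sensOn f false) ^ 2 + 271 := by
  have h : bs f ≤ (729 * (sensOn f true * sensOn f false) ^ 2 + 271) / 1000 := by
    apply Finset.sup_le
    intro x _
    apply csSup_le'
    rintro m ⟨B, _, hdisj, hB⟩
    rw [Nat.le_div_iff_mul_le (by norm_num)]
    have := blocks_bound f x B hdisj hB
    omega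
  have := (Nat.le_div_iff_mul_le (by norm_num : 0 < 1000)).mp h
  omega

end Vale.Agent.Helper25.BS
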