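import Mathlib

namespace Vale.Agent.Helper25.TR

/-- The trace of the string `x` in which exactly the positions `i` with `s i = true` survive. -/
def trace {n : ℕ} (x s : Fin n → Bool) : List Bool :=
  ((List.finRange n).filter (fun i => s i)).map x

/-- The probability of the survival pattern `s` when every bit is deleted independently with
probability `q`. -/
noncomputable def survProb (q : ℝ) {n : ℕ} (s : Fin n → Bool) : ℝ :=
  ∏ i, if s i then 1 - q else q

/-- A (randomized) estimator of strings in `{0,1}^n` from `m` binary strings: for each input a
probability distribution on `{0,1}^n`. -/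
structure Estimator (n m : ℕ) where
  /-- `prob w x` is the probability of the output `x` on input `w` -/
  prob : (Fin m → List Bool) → (Fin n → Bool) → ℝ
  nonneg : ∀ w x, 0 ≤ prob w x
  sum_eq_one : ∀ w, ∑ x, prob w x = 1

/-- The probability that the estimator outputs `x` when it is given `m` independent traces
of `x`. -/
noncomputable def successProb (q : ℝ) {n m : ℕ} (E : Estimator n m) (x : Fin n → Bool) : ℝ :=
  ∑ s : Fin m → Fin n → Bool, (∏ j, survProb q (s j)) * E.prob (fun j => trace x (s j)) x

/-- `m` traces suffice: some estimator outputs `x` with probability at least `2/3` for every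
`x ∈ {0,1}^n`. -/
def Suffices (q : ℝ) (n m : ℕ) : Prop :=
  ∃ E : Estimator n m, ∀ x, 2 / 3 ≤ successProb q E x

/-- `T_q(n)`, the worst-case sample complexity of trace reconstruction. -/
noncomputable def sampleComplexity (q : ℝ) (n : ℕ) : ℕ := sInf {m | Suffices q n m}

end Vale.Agent.Helper25.TR
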