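import Mathlib
import Vale.Agent.Helper25.TRDefs

namespace Vale.Agent.Helper25.TR

open Finset

/-- convolution operators -/
abbrev Op := Module.End ℝ (List Bool → ℝ)

/-- append a fixed word -/
def S (v : List Bool) : Op where
  toFun f := fun w => f (w ++ v)
  map_add' f g := by funext w; rfl
  map_smul' r f := by funext w; rfl

lemma S_apply (v : List Bool) (f : List Bool → ℝ) (w : List Bool) : S v f w = f (w ++ v) := rfl

lemma S_nil : S [] = 1 := by
  ext f w
  simp [S_apply]

lemma S_append (v v' : List Bool) : S (v ++ v') = S v * S v' := by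
  refine LinearMap.ext (fun f => ?_)
  funext w
  show f (w ++ (v ++ v')) = f (w ++ v ++ v')
  rw [List.append_assoc]

/-- trace law operator of a word -/
noncomputable def D (q : ℝ) : List Bool → Op
  | [] => 1
  | b :: l => (q • (1 : Op) + (1 - q) • S [b]) * D q l

lemma D_append (q : ℝ) (l l' : List Bool) : D q (l ++ l') = D q l * D q l' := by
  induction l with
  | nil => simp [D]
  | cons b l ih => rw [List.cons_append, D, D, ih, mul_assoc]

lemma trace_succ {n : ℕ} (x s : Fin (n+1) → Bool) :
    trace x s = (if s 0 then [x 0] else []) ++ trace (fun i => x i.succ) (fun i => s i.succ) := by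
  unfold trace
  rw [List.finRange_succ, List.filter_cons, List.filter_map]
  by_cases h : s 0 = true
  · simp [h, Function.comp_def]
  · simp [h, Function.comp_def]

lemma law_eq {n : ℕ} (q : ℝ) (x : Fin n → Bool) (f : List Bool → ℝ) (w : List Bool) :
    ∑ s : Fin n → Bool, survProb q s * f (w ++ trace x s) = D q (List.ofFn x) f w := by
  induction n generalizing w with
  | zero =>
    simp [survProb, trace, D]
  | succ n ih =>
    rw [← (Fin.consEquiv (fun _ : Fin (n+1) => Bool)).sum_comp, Fintype.sum_prod_type]
    have hce : ∀ (b : Bool) (s : Fin n → Bool), (Fin.consEquiv (fun _ : Fin (n+1) => Bool)) (b, s)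
        = (Fin.cons b s : Fin (n+1) → Bool) := fun _ _ => rfl
    simp only [hce]
    have key : ∀ (b : Bool) (s : Fin n → Bool),
        survProb q (Fin.cons b s : Fin (n+1) → Bool) * f (w ++ trace x (Fin.cons b s))
        = (if b then 1 - q else q) * (survProb q s *
          f ((w ++ (if b then [x 0] else [])) ++ trace (fun i => x i.succ) s)) := by
      intro b s
      rw [trace_succ]
      unfold survProb
      rw [Fin.prod_univ_succ]
      simp only [Fin.cons_zero, Fin.cons_succ, List.append_assoc, mul_assoc]
    simp only [key, ← Finset.mul_sum, ih]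
    rw [List.ofFn_succ]
    rw [Fintype.sum_bool]
    simp only [D, if_true, Bool.false_eq_true, if_false, List.append_nil]
    simp only [Module.End.mul_apply, LinearMap.add_apply, LinearMap.smul_apply, Pi.add_apply,
      Pi.smul_apply, smul_eq_mul, Module.End.one_apply, S_apply]
    ring

/-- repeated block `01` -/
def rep (k : ℕ) : List Bool := (List.replicate k [false, true]).flatten

lemma length_rep (k : ℕ) : (rep k).length = 2 * k := by
  simp [rep, mul_comm]

lemma D_rep (q : ℝ) (k : ℕ) : D q (rep k) = (D q [false, true]) ^ k := by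
  induction k with
  | zero => simp [rep, D]
  | succ k ih =>
    have : rep (k+1) = [false, true] ++ rep k := by simp [rep, List.replicate_succ]
    rw [this, D_append, ih, pow_succ']

/-- words of the nonempty chunks -/
def cw : Fin 3 → List Bool := ![[false], [true], [false, true]]

/-- probability weights of the nonempty chunks -/
noncomputable def wt (q : ℝ) : Fin 3 → ℝ := ![(1 - q) * q, q * (1 - q), (1 - q) ^ 2]

/-- concatenation of the chunks -/
def word {k : ℕ} (c : Fin k → Fin 3) : List Bool := (List.ofFn (fun l => cw (c l))).flatten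

/-- sum over nonempty chunks -/
noncomputable def X (q : ℝ) : Op := ∑ a, wt q a • S (cw a)

lemma D_unit (q : ℝ) : D q [false, true] = (q ^ 2) • (1 : Op) + X q := by
  have h : S [false, true] = S [false] * S [true] := S_append [false] [true]
  have hx : X q = ((1 - q) * q) • S [false] + (q * (1 - q)) • S [true]
      + ((1 - q) ^ 2) • S [false, true] := by
    unfold X wt cw
    rw [Fin.sum_univ_three]
    rfl
  rw [hx, h]
  unfold D D D
  simp only [mul_add, add_mul, mul_one, smul_mul_smul_comm, one_mul]
  module

lemma word_cons {k : ℕ} (a : Fin 3) (c : Fin k → Fin 3) :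
    word (Fin.cons a c : Fin (k+1) → Fin 3) = cw a ++ word c := by
  unfold word
  rw [List.ofFn_succ]
  simp

/-- expansion of an ordered product of sums over chunks -/
lemma prod_expand (k : ℕ) (g : Fin k → Fin 3 → ℝ) :
    (List.ofFn (fun l => ∑ a, g l a • S (cw a))).prod
      = ∑ c : Fin k → Fin 3, (∏ l, g l (c l)) • S (word c) := by
  induction k with
  | zero => simp [word, S_nil]
  | succ k ih =>
    rw [List.ofFn_succ, List.prod_cons, ih (fun l => g l.succ),
      ← (Fin.consEquiv (fun _ : Fin (k+1) => Fin 3)).sum_comp, Fintype.sum_prod_type]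
    have hce : ∀ (b : Fin 3) (s : Fin k → Fin 3),
        (Fin.consEquiv (fun _ : Fin (k+1) => Fin 3)) (b, s)
        = (Fin.cons b s : Fin (k+1) → Fin 3) := fun _ _ => rfl
    simp only [hce, Fin.prod_univ_succ, Fin.cons_zero, Fin.cons_succ, word_cons,
      S_append]
    rw [Finset.sum_mul]
    apply Finset.sum_congr rfl
    intro a _
    rw [Finset.mul_sum]
    apply Finset.sum_congr rfl
    intro c _
    rw [smul_mul_smul_comm]

lemma X_pow (q : ℝ) (k : ℕ) :
    X q ^ k = ∑ c : Fin k → Fin 3, (∏ l, wt q (c l)) • S (word c) := by
  rw [← prod_expand k (fun _ => wt q)]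
  rw [List.ofFn_const, List.prod_replicate]
  rfl

lemma pow_mul_pow_eq (k : ℕ) (i : Fin k) (A B : Op) :
    (List.ofFn (fun l : Fin k => if l = i then B else A)).prod
      = A ^ (i : ℕ) * B * A ^ (k - 1 - (i : ℕ)) := by
  induction k with
  | zero => exact i.elim0
  | succ k ih =>
    rw [List.ofFn_succ, List.prod_cons]
    refine Fin.cases ?_ (fun i' => ?_) i
    · simp only [if_true, Fin.val_zero, pow_zero, one_mul]
      have : (fun i : Fin k => if i.succ = 0 then B else A) = fun _ => A := by
        funext j; rw [if_neg (Fin.succ_ne_zero j)]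
      rw [this, List.ofFn_const, List.prod_replicate]
      simp
    · have h1 : ((0 : Fin (k+1)) = i'.succ) = False := by
        simp only [eq_iff_iff, iff_false]
        exact (Fin.succ_ne_zero i').symm
      have h2 : (fun i : Fin k => if i.succ = i'.succ then B else A)
          = fun i => if i = i' then B else A := by
        funext j; simp only [Fin.succ_inj]
      rw [h2, ih i']
      simp only [h1, if_false, Fin.val_succ, pow_succ', mul_assoc]
      congr 4
      have := i'.isLt
      omega

lemma S_true_eq : S [true] = ∑ a : Fin 3, (if a = 1 then (1:ℝ) else 0) • S (cw a) := by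
  rw [Fin.sum_univ_three]
  simp [cw]

lemma XYX (q : ℝ) (k : ℕ) (i : Fin k) :
    X q ^ (i : ℕ) * S [true] * X q ^ (k - 1 - (i : ℕ))
      = ∑ c : Fin k → Fin 3,
        (∏ l, if l = i then (if c l = 1 then (1:ℝ) else 0) else wt q (c l)) • S (word c) := by
  rw [← pow_mul_pow_eq, ← prod_expand k
    (fun l a => if l = i then (if a = 1 then (1:ℝ) else 0) else wt q a)]
  congr 2
  funext l
  by_cases h : l = i
  · simp only [h, if_true]
    exact S_true_eq
  · simp only [h, if_false]
    rfl

end Vale.Agent.Helper25.TR
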