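import Mathlib

namespace Vale.Agent.Helper25.TR

open Finset Nat

lemma cb_upper (k : ℕ) : (centralBinom k) ^ 2 * (3 * k + 1) ≤ 16 ^ k := by
  induction k with
  | zero => simp
  | succ k ih =>
    have h := Nat.succ_mul_centralBinom_succ k
    set a := centralBinom k
    set b := centralBinom (k+1)
    have h2 : (k+1)^2 * b^2 = 4 * (2*k+1)^2 * a^2 := by
      calc (k+1)^2 * b^2 = ((k+1) * b)^2 := by ring
        _ = (2 * (2*k+1) * a)^2 := by rw [h]
        _ = _ := by ring
    have hpos : 0 < (k+1)^2 * (3*k+1) := by positivity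
    apply Nat.le_of_mul_le_mul_left _ hpos
    calc (k+1)^2 * (3*k+1) * (b^2 * (3*(k+1)+1))
        = ((k+1)^2 * b^2) * ((3*k+1) * (3*k+4)) := by ring
      _ = (a^2 * (3*k+1)) * (4*(2*k+1)^2*(3*k+4)) := by rw [h2]; ring
      _ ≤ 16^k * (4*(2*k+1)^2*(3*k+4)) := Nat.mul_le_mul_right _ ih
      _ ≤ 16^k * (16 * (k+1)^2*(3*k+1)) := by
          apply Nat.mul_le_mul_left
          nlinarith
      _ = _ := by ring

lemma cb_lower (n : ℕ) : 16 ^ (n+1) ≤ (centralBinom (n+1)) ^ 2 * (4 * (n+1)) := by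
  induction n with
  | zero => simp [centralBinom, Nat.choose]
  | succ n ih =>
    have h := Nat.succ_mul_centralBinom_succ (n+1)
    set a := centralBinom (n+1)
    set b := centralBinom (n+1+1)
    have h2 : (n+1+1)^2 * b^2 = 4 * (2*(n+1)+1)^2 * a^2 := by
      calc (n+1+1)^2 * b^2 = ((n+1+1) * b)^2 := by ring
        _ = (2 * (2*(n+1)+1) * a)^2 := by rw [h]
        _ = _ := by ring
    have hpos : 0 < (n+2)^2 * (n+1) := by positivity
    apply Nat.le_of_mul_le_mul_left _ hpos
    calc (n+2)^2 * (n+1) * 16^(n+1+1) = 16^(n+1) * (16 * (n+2)^2*(n+1)) := by ring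
      _ ≤ (a^2 * (4*(n+1))) * (16 * (n+2)^2*(n+1)) := Nat.mul_le_mul_right _ ih
      _ = a^2 * (64 * (n+2)^2 * (n+1)^2) := by ring
      _ ≤ a^2 * (16*(2*(n+1)+1)^2 * (n+1) * (n+2)) := by
          apply Nat.mul_le_mul_left
          nlinarith
      _ = ((n+1+1)^2 * b^2) * (4 * (n+1) * (n+2)) := by rw [h2]; ring
      _ = _ := by ring

lemma choose_sq_bound (k i : ℕ) : (k.choose i) ^ 2 * (k + 1) ≤ 4 ^ k := by
  have hmid := Nat.choose_le_middle i k
  rcases Nat.even_or_odd' k with ⟨j, hj | hj⟩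
  · subst hj
    have : (2*j)/2 = j := by omega
    rw [this] at hmid
    have hcb : (2*j).choose j = centralBinom j := rfl
    rw [hcb] at hmid
    calc ((2*j).choose i)^2 * (2*j+1) ≤ (centralBinom j)^2 * (3*j+1) :=
          Nat.mul_le_mul (Nat.pow_le_pow_left hmid 2) (by omega)
      _ ≤ 16^j := cb_upper j
      _ = 4^(2*j) := by rw [pow_mul]; norm_num
  · subst hj
    have : (2*j+1)/2 = j := by omega
    rw [this] at hmid
    have hcb : 2 * (2*j+1).choose j = centralBinom (j+1) := by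
      have h1 : centralBinom (j+1) = (2*(j+1)).choose (j+1) := rfl
      rw [h1, show 2*(j+1) = (2*j+1)+1 by ring, Nat.choose_succ_succ]
      have h2 : (2*j+1).choose (j+1) = (2*j+1).choose j := by
        have := Nat.choose_symm_half j
        exact this
      rw [h2]; ring
    have h3 := cb_upper (j+1)
    rw [← hcb] at h3
    have h4 : ((2*j+1).choose i)^2 ≤ ((2*j+1).choose j)^2 := Nat.pow_le_pow_left hmid 2
    have h5 : 4 * (4^(2*j+1)) = 16^(j+1) := by
      rw [show (16:ℕ) = 4^2 by norm_num, ← pow_mul, ← pow_succ']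
      congr 1
    have h6 : 4 * (((2*j+1).choose i)^2 * (2*j+1+1)) ≤ 4 * 4^(2*j+1) := by
      rw [h5]
      calc 4 * (((2*j+1).choose i)^2 * (2*j+1+1)) ≤ 4 * (((2*j+1).choose j)^2 * (3*(j+1)+1)) := by
            apply Nat.mul_le_mul_left
            exact Nat.mul_le_mul h4 (by omega)
        _ = (2 * (2*j+1).choose j)^2 * (3*(j+1)+1) := by ring
        _ ≤ _ := h3
    omega

lemma acf (i j : ℕ) : (i+j).choose i * i ! * j ! = (i+j)! := by
  have := Nat.choose_mul_factorial_mul_factorial (Nat.le_add_right i j)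
  rwa [Nat.add_sub_cancel_left] at this

/-- symmetric form of the hypergeometric weights -/
lemma hyp_symm (a b c d : ℕ) :
    (a+b+c+d).choose (a+b) * (a+b).choose a * (c+d).choose c
      = (a+b+c+d).choose (a+c) * (a+c).choose a * (b+d).choose b := by
  have e1 := acf (a+b) (c+d)
  have e2 := acf a b
  have e3 := acf c d
  have e4 := acf (a+c) (b+d)
  have e5 := acf a c
  have e6 := acf b d
  have s1 : a+b+(c+d) = a+b+c+d := by ring
  have s2 : a+c+(b+d) = a+b+c+d := by ring
  rw [s1] at e1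
  rw [s2] at e4
  have hpos : 0 < a ! * b ! * c ! * d ! := by positivity
  apply Nat.eq_of_mul_eq_mul_right hpos
  calc (a+b+c+d).choose (a+b) * (a+b).choose a * (c+d).choose c * (a ! * b ! * c ! * d !)
      = (a+b+c+d).choose (a+b) * ((a+b).choose a * a ! * b !) * ((c+d).choose c * c ! * d !) := by
        ring
    _ = (a+b+c+d)! := by rw [e2, e3, e1]
    _ = (a+b+c+d).choose (a+c) * ((a+c).choose a * a ! * c !) * ((b+d).choose b * b ! * d !) := by
        rw [e5, e6, e4]
    _ = _ := by ring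

lemma pair_bound (N k i : ℕ) (hN : 1 ≤ N) (hk : k ≤ 2 * N) (hi : i ≤ k) :
    (N.choose i * N.choose (k - i)) ^ 2 * ((k + 1) * (2 * N - k + 1))
      ≤ ((2 * N).choose k) ^ 2 * (4 * N) := by
  by_cases h1 : i ≤ N
  · by_cases h2 : k - i ≤ N
    · have hs := hyp_symm i (k - i) (N - i) (N - (k - i))
      have t1 : i + (k-i) + (N-i) + (N-(k-i)) = 2*N := by omega
      have t2 : i + (k-i) = k := by omega
      have t3 : (N-i) + (N-(k-i)) = 2*N - k := by omega
      have t4 : i + (N-i) = N := by omega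
      have t5 : (k-i) + (N-(k-i)) = N := by omega
      rw [t1, t2, t3, t4, t5] at hs
      have hb1 := choose_sq_bound k i
      have hb2 := choose_sq_bound (2*N-k) (N-i)
      have hcb : 16 ^ N ≤ ((2*N).choose N)^2 * (4*N) := by
        obtain ⟨n, rfl⟩ : ∃ n, N = n+1 := ⟨N-1, by omega⟩
        exact cb_lower n
      have hprod : 4 ^ k * 4 ^ (2*N-k) = 16 ^ N := by
        rw [← pow_add, show k + (2*N-k) = 2*N by omega, pow_mul]; norm_num
      have hpos : 0 < ((2*N).choose N)^2 := by
        have := Nat.choose_pos (show N ≤ 2*N by omega)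
        positivity
      apply Nat.le_of_mul_le_mul_left _ hpos
      calc ((2*N).choose N)^2 * ((N.choose i * N.choose (k - i)) ^ 2 * ((k + 1) * (2 * N - k + 1)))
          = ((2*N).choose N * N.choose i * N.choose (k-i))^2 * ((k+1) * (2*N-k+1)) := by ring
        _ = ((2*N).choose k * k.choose i * (2*N-k).choose (N-i))^2 * ((k+1) * (2*N-k+1)) := by
            rw [hs]
        _ = ((2*N).choose k)^2 * ((k.choose i)^2 * (k+1)) * (((2*N-k).choose (N-i))^2 * (2*N-k+1))
            := by ring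
        _ ≤ ((2*N).choose k)^2 * 4^k * 4^(2*N-k) :=
            Nat.mul_le_mul (Nat.mul_le_mul_left _ hb1) hb2
        _ = ((2*N).choose k)^2 * 16^N := by rw [← hprod]; ring
        _ ≤ ((2*N).choose k)^2 * (((2*N).choose N)^2 * (4*N)) := Nat.mul_le_mul_left _ hcb
        _ = _ := by ring
    · rw [Nat.choose_eq_zero_of_lt (show N < k - i by omega)]
      simp
  · rw [Nat.choose_eq_zero_of_lt (show N < i by omega)]
    simp

lemma sum_ij (n k : ℕ) :
    ∑ p ∈ antidiagonal (k + 2), p.1 * p.2 * ((n+1).choose p.1 * (n+1).choose p.2)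
      = (n+1)^2 * (2*n).choose k := by
  rw [Finset.Nat.antidiagonal_succ_succ']
  simp only [Finset.sum_cons, Finset.sum_map, zero_mul, mul_zero, zero_add,
    Function.Embedding.prodMap, Function.Embedding.coeFn_mk, Prod.map]
  rw [two_mul n, Nat.add_choose_eq, Finset.mul_sum]
  apply Finset.sum_congr rfl
  intro p _
  have e1 := Nat.add_one_mul_choose_eq n p.1
  have e2 := Nat.add_one_mul_choose_eq n p.2
  show (p.1+1) * (p.2+1) * ((n+1).choose (p.1+1) * (n+1).choose (p.2+1)) = _
  calc (p.1+1) * (p.2+1) * ((n+1).choose (p.1+1) * (n+1).choose (p.2+1))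
      = ((n+1).choose (p.1+1) * (p.1+1)) * ((n+1).choose (p.2+1) * (p.2+1)) := by ring
    _ = ((n+1) * n.choose p.1) * ((n+1) * n.choose p.2) := by rw [← e1, ← e2]
    _ = _ := by ring

end Vale.Agent.Helper25.TR
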