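import Mathlib
import Vale.Agent.Helper25.TRComb

namespace Vale.Agent.Helper25.TR

open Finset

lemma V_bound (N k : ℕ) (hN : 1 ≤ N) :
    ∑ i ∈ range (k + 1), (N.choose i : ℝ) * (N.choose (k - i) : ℝ) * (2 * (i : ℝ) - k) ^ 2
      ≤ N * ((2 * N).choose k : ℝ) := by
  have h0 : ∑ i ∈ range (k + 1), (N.choose i : ℝ) * (N.choose (k - i) : ℝ) * (2 * (i : ℝ) - k) ^ 2
      = (k : ℝ) ^ 2 * ((2 * N).choose k : ℝ)
        - 4 * ((∑ p ∈ antidiagonal k, p.1 * p.2 * (N.choose p.1 * N.choose p.2) : ℕ) : ℝ) := by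
    have hV : ((2 * N).choose k : ℝ)
        = ∑ p ∈ antidiagonal k, (N.choose p.1 : ℝ) * (N.choose p.2 : ℝ) := by
      rw [two_mul, Nat.add_choose_eq]; push_cast; rfl
    rw [hV]
    push_cast
    rw [← Finset.Nat.sum_antidiagonal_eq_sum_range_succ
      (fun i j => (N.choose i : ℝ) * (N.choose j : ℝ) * (2 * (i : ℝ) - k) ^ 2) k,
      Finset.mul_sum, Finset.mul_sum, ← Finset.sum_sub_distrib]
    apply Finset.sum_congr rfl
    intro p hp
    have hpk : (p.1 : ℝ) + p.2 = k := by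
      have := Finset.HasAntidiagonal.mem_antidiagonal.mp hp
      exact_mod_cast this
    rw [← hpk]
    ring
  rw [h0]
  have hNr : (1 : ℝ) ≤ N := by exact_mod_cast hN
  rcases Nat.lt_or_ge k 2 with hk | hk
  · have hnn : (0 : ℝ) ≤
        ((∑ p ∈ antidiagonal k, p.1 * p.2 * (N.choose p.1 * N.choose p.2) : ℕ) : ℝ) :=
      Nat.cast_nonneg _
    have hc : (0 : ℝ) ≤ ((2 * N).choose k : ℝ) := Nat.cast_nonneg _
    have hk1 : (k : ℝ) ^ 2 ≤ 1 := by
      have : (k : ℝ) ≤ 1 := by exact_mod_cast (by omega : k ≤ 1)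
      have h' : (0:ℝ) ≤ k := Nat.cast_nonneg _
      nlinarith
    nlinarith
  · obtain ⟨k', rfl⟩ : ∃ k', k = k' + 2 := ⟨k - 2, by omega⟩
    obtain ⟨n, rfl⟩ : ∃ n, N = n + 1 := ⟨N - 1, by omega⟩
    rw [sum_ij n k']
    have e1 := Nat.add_one_mul_choose_eq (2 * n + 1) (k' + 1)
    have e2 := Nat.add_one_mul_choose_eq (2 * n) k'
    have e1r : ((2 * n + 1 + 1 : ℕ) : ℝ) * ((2 * n + 1).choose (k' + 1) : ℝ)
        = ((2 * n + 1 + 1).choose (k' + 1 + 1) : ℝ) * ((k' + 1 + 1 : ℕ) : ℝ) := by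
      exact_mod_cast e1
    have e2r : ((2 * n + 1 : ℕ) : ℝ) * ((2 * n).choose k' : ℝ)
        = ((2 * n + 1).choose (k' + 1) : ℝ) * ((k' + 1 : ℕ) : ℝ) := by
      exact_mod_cast e2
    have hs : 2 * (n + 1) = 2 * n + 1 + 1 := by ring
    rw [hs]
    set C : ℝ := ((2 * n + 1 + 1).choose (k' + 1 + 1) : ℝ) with hC
    set c : ℝ := ((2 * n).choose k' : ℝ) with hc
    set c1 : ℝ := ((2 * n + 1).choose (k' + 1) : ℝ) with hc1
    have hC0 : 0 ≤ C := Nat.cast_nonneg _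
    push_cast at e1r e2r ⊢
    have key : C * ((k' : ℝ) + 2) * (k' + 1) = (2 * n + 2) * (2 * n + 1) * c := by
      have : C * ((k' : ℝ) + 2) = (2 * n + 2) * c1 := by linarith
      rw [this]
      have : c1 * ((k' : ℝ) + 1) = (2 * n + 1) * c := by linarith
      calc (2 * (n:ℝ) + 2) * c1 * (k' + 1) = (2 * n + 2) * (c1 * ((k' : ℝ) + 1)) := by ring
        _ = _ := by rw [this]; ring
    have hpos : (0 : ℝ) < 2 * n + 1 := by positivity
    have hgoal : (2 * (n:ℝ) + 1) * (((k' : ℝ) + 2) ^ 2 * C - 4 * (((n : ℝ) + 1) ^ 2 * c))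
        ≤ (2 * (n:ℝ) + 1) * (((n:ℝ) + 1) * C) := by
      have : (2 * (n:ℝ) + 1) * (((k' : ℝ) + 2) ^ 2 * C - 4 * (((n : ℝ) + 1) ^ 2 * c))
          = C * ((2 * n + 1) * ((k' : ℝ) + 2) ^ 2 - 2 * (n + 1) * ((k' + 2) * (k' + 1))) := by
        have h3 : 4 * ((n:ℝ) + 1) ^ 2 * (2 * n + 1) * c = 2 * (n + 1) *
            ((2 * n + 2) * (2 * n + 1) * c) := by ring
        have h4 : (2 * (n:ℝ) + 1) * (((k' : ℝ) + 2) ^ 2 * C - 4 * (((n : ℝ) + 1) ^ 2 * c))
            = (2 * (n:ℝ) + 1) * ((k' : ℝ) + 2) ^ 2 * C - 4 * ((n:ℝ) + 1) ^ 2 * (2 * n + 1) * c := by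
          ring
        rw [h4, h3, ← key]
        ring
      rw [this]
      have h5 : (2 * (n:ℝ) + 1) * ((k' : ℝ) + 2) ^ 2 - 2 * (n + 1) * ((k' + 2) * (k' + 1))
          ≤ (2 * n + 1) * (n + 1) := by
        have hn : (0:ℝ) ≤ n := Nat.cast_nonneg _
        nlinarith [sq_nonneg ((n:ℝ) + 1 - (k' + 2)), mul_nonneg hn (by positivity : (0:ℝ) ≤ n + 1)]
      calc C * _ ≤ C * ((2 * n + 1) * (n + 1)) := mul_le_mul_of_nonneg_left h5 hC0
        _ = _ := by ring
    exact le_of_mul_le_mul_left hgoal hpos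

lemma choose_three (n k : ℕ) (hk : k ≤ n) :
    (n.choose k : ℝ) * ((n + 1) * (n + 2) * (n + 3))
      = ((n + 3).choose k : ℝ) * (((n : ℝ) - k + 1) * ((n : ℝ) - k + 2) * ((n : ℝ) - k + 3)) := by
  have h : ∀ m : ℕ, k ≤ m → (m.choose k : ℝ) * (m + 1) = ((m+1).choose k : ℝ) * ((m : ℝ) - k + 1) := by
    intro m hm
    have := Nat.choose_mul_succ_eq m k
    have h2 : ((m.choose k : ℕ) : ℝ) * ((m + 1 : ℕ) : ℝ)
        = ((m+1).choose k : ℝ) * ((m + 1 - k : ℕ) : ℝ) := by exact_mod_cast this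
    rw [Nat.cast_sub (by omega)] at h2
    push_cast at h2
    rw [h2]; ring
  have h1 := h n hk
  have h2 := h (n+1) (by omega)
  have h3 := h (n+1+1) (by omega)
  push_cast at h2 h3
  have e3 : n + 1 + 1 + 1 = n + 3 := by ring
  rw [e3] at h3
  calc (n.choose k : ℝ) * ((n + 1) * (n + 2) * (n + 3))
      = ((n.choose k : ℝ) * (n + 1)) * ((n + 2) * (n + 3)) := by ring
    _ = (((n+1).choose k : ℝ) * (n + 1 + 1)) * (((n:ℝ) - k + 1) * (n + 3)) := by rw [h1]; ring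
    _ = (((n+1+1).choose k : ℝ) * (n + 1 + 1 + 1)) * (((n:ℝ) - k + 1) * ((n:ℝ) + 1 - k + 1)) := by
        rw [h2]; ring
    _ = _ := by rw [h3]; ring

lemma neg_moment (n : ℕ) (θ η : ℝ) (hθ : 0 ≤ θ) (hη : 0 < η) (h1 : θ + η = 1) :
    ∑ k ∈ range (n + 1), (n.choose k : ℝ) * θ ^ k * η ^ (n - k) *
      (1 / (((n : ℝ) - k + 1) * ((n : ℝ) - k + 2) * ((n : ℝ) - k + 3)))
      ≤ 1 / (((n : ℝ) + 1) * (n + 2) * (n + 3) * η ^ 3) := by
  have hterm : ∀ k ∈ range (n + 1), (n.choose k : ℝ) * θ ^ k * η ^ (n - k) *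
      (1 / (((n : ℝ) - k + 1) * ((n : ℝ) - k + 2) * ((n : ℝ) - k + 3)))
      = (θ ^ k * η ^ (n + 3 - k) * ((n+3).choose k : ℝ)) *
        (1 / (((n : ℝ) + 1) * (n + 2) * (n + 3) * η ^ 3)) := by
    intro k hk
    have hkn : k ≤ n := by have := Finset.mem_range.mp hk; omega
    have hc := choose_three n k hkn
    have hz : (0:ℝ) ≤ (n:ℝ) - k := by
      have : (k:ℝ) ≤ n := by exact_mod_cast hkn
      linarith
    have hp1 : (0:ℝ) < (n : ℝ) - k + 1 := by linarith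
    have hp2 : (0:ℝ) < (n : ℝ) - k + 2 := by linarith
    have hp3 : (0:ℝ) < (n : ℝ) - k + 3 := by linarith
    have e : n + 3 - k = (n - k) + 3 := by omega
    rw [e, pow_add]
    field_simp
    linear_combination θ ^ k * hc
  rw [Finset.sum_congr rfl hterm, ← Finset.sum_mul]
  have hsum : ∑ k ∈ range (n + 1), θ ^ k * η ^ (n + 3 - k) * ((n+3).choose k : ℝ) ≤ 1 := by
    have hfull : ∑ k ∈ range (n + 3 + 1), θ ^ k * η ^ (n + 3 - k) * ((n+3).choose k : ℝ) = 1 := by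
      rw [← add_pow, h1, one_pow]
    rw [← hfull]
    apply Finset.sum_le_sum_of_subset_of_nonneg
    · intro k hk
      rw [Finset.mem_range] at hk ⊢
      omega
    · intro k _ _
      positivity
  have hpos : (0:ℝ) ≤ 1 / (((n : ℝ) + 1) * (n + 2) * (n + 3) * η ^ 3) := by positivity
  calc _ ≤ 1 * (1 / (((n : ℝ) + 1) * (n + 2) * (n + 3) * η ^ 3)) :=
        mul_le_mul_of_nonneg_right hsum hpos
    _ = _ := one_mul _

/-- second moment of a linear statistic of independent chunk types -/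
lemma second_moment (k : ℕ) (π ind : Fin 3 → ℝ) (hπ : ∑ a, π a = 1) (g : Fin k → ℝ) :
    (∑ c : Fin k → Fin 3, (∏ l, π (c l)) = 1) ∧
    (∑ c : Fin k → Fin 3, (∏ l, π (c l)) * (∑ i, g i * ind (c i))
      = (∑ a, π a * ind a) * ∑ i, g i) ∧
    (∑ c : Fin k → Fin 3, (∏ l, π (c l)) * (∑ i, g i * ind (c i)) ^ 2
      = ((∑ a, π a * ind a ^ 2) - (∑ a, π a * ind a) ^ 2) * (∑ i, g i ^ 2)
        + (∑ a, π a * ind a) ^ 2 * (∑ i, g i) ^ 2) := by
  induction k with
  | zero => simp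
  | succ k ih =>
    obtain ⟨ih0, ih1, ih2⟩ := ih (fun i => g i.succ)
    set μ1 := ∑ a, π a * ind a with hμ1
    set μ2 := ∑ a, π a * ind a ^ 2 with hμ2
    have hce : ∀ (b : Fin 3) (s : Fin k → Fin 3),
        (Fin.consEquiv (fun _ : Fin (k+1) => Fin 3)) (b, s)
        = (Fin.cons b s : Fin (k+1) → Fin 3) := fun _ _ => rfl
    refine ⟨?_, ?_, ?_⟩
    · rw [← (Fin.consEquiv (fun _ : Fin (k+1) => Fin 3)).sum_comp, Fintype.sum_prod_type]
      simp only [hce, Fin.prod_univ_succ, Fin.cons_zero, Fin.cons_succ]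
      simp only [← Finset.mul_sum, ih0, mul_one, hπ]
    · rw [← (Fin.consEquiv (fun _ : Fin (k+1) => Fin 3)).sum_comp, Fintype.sum_prod_type]
      simp only [hce, Fin.prod_univ_succ, Fin.sum_univ_succ g, Fin.cons_zero, Fin.cons_succ]
      have : ∀ a : Fin 3, ∑ c : Fin k → Fin 3, π a * (∏ l, π (c l)) *
            (∑ i, g i * ind ((Fin.cons a c : Fin (k+1) → Fin 3) i))
          = π a * ind a * g 0 + π a * (μ1 * ∑ i : Fin k, g i.succ) := by
        intro a
        have h2 : ∀ c : Fin k → Fin 3, π a * (∏ l, π (c l)) *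
            (∑ i, g i * ind ((Fin.cons a c : Fin (k+1) → Fin 3) i))
            = (π a * ind a * g 0) * (∏ l, π (c l)) + π a * ((∏ l, π (c l)) *
              (∑ i : Fin k, g i.succ * ind (c i))) := by
          intro c
          rw [Fin.sum_univ_succ]
          simp only [Fin.cons_zero, Fin.cons_succ]
          ring
        rw [Finset.sum_congr rfl (fun c _ => h2 c), Finset.sum_add_distrib, ← Finset.mul_sum,
          ← Finset.mul_sum, ih0, ih1]
        ring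
      rw [Finset.sum_congr rfl (fun a _ => this a), Finset.sum_add_distrib, ← Finset.sum_mul,
        ← Finset.sum_mul, hπ, ← hμ1]
      ring
    · rw [← (Fin.consEquiv (fun _ : Fin (k+1) => Fin 3)).sum_comp, Fintype.sum_prod_type]
      simp only [hce, Fin.prod_univ_succ, Fin.cons_zero, Fin.cons_succ]
      have : ∀ a : Fin 3, ∑ c : Fin k → Fin 3, π a * (∏ l, π (c l)) *
            (∑ i, g i * ind ((Fin.cons a c : Fin (k+1) → Fin 3) i)) ^ 2
          = (π a * ind a ^ 2) * g 0 ^ 2 + 2 * g 0 * (π a * ind a) * (μ1 * ∑ i : Fin k, g i.succ)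
            + π a * ((μ2 - μ1 ^ 2) * (∑ i : Fin k, g i.succ ^ 2)
              + μ1 ^ 2 * (∑ i : Fin k, g i.succ) ^ 2) := by
        intro a
        have h2 : ∀ c : Fin k → Fin 3, π a * (∏ l, π (c l)) *
            (∑ i, g i * ind ((Fin.cons a c : Fin (k+1) → Fin 3) i)) ^ 2
            = ((π a * ind a ^ 2) * g 0 ^ 2) * (∏ l, π (c l))
              + (2 * g 0 * (π a * ind a)) * ((∏ l, π (c l)) *
              (∑ i : Fin k, g i.succ * ind (c i)))
              + π a * ((∏ l, π (c l)) * (∑ i : Fin k, g i.succ * ind (c i)) ^ 2) := by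
          intro c
          rw [Fin.sum_univ_succ]
          simp only [Fin.cons_zero, Fin.cons_succ]
          ring
        rw [Finset.sum_congr rfl (fun c _ => h2 c), Finset.sum_add_distrib,
          Finset.sum_add_distrib, ← Finset.mul_sum, ← Finset.mul_sum, ← Finset.mul_sum, ih0, ih1,
          ih2]
        ring
      rw [Finset.sum_congr rfl (fun a _ => this a), Finset.sum_add_distrib,
        Finset.sum_add_distrib, ← Finset.sum_mul, ← Finset.sum_mul, ← Finset.sum_mul,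
        ← Finset.mul_sum, hπ, ← hμ1, ← hμ2, Fin.sum_univ_succ, Fin.sum_univ_succ]
      ring

end Vale.Agent.Helper25.TR
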