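import Mathlib
import Vale.Agent.Helper25.TRDefs
import Vale.Agent.Helper25.TRAlg

namespace Vale.Agent.Helper25.TR

open Finset

/-- coefficient of the background -/
noncomputable def coefA (q : ℝ) (L I : ℕ) : ℝ := (L.choose I : ℝ) * (q ^ 2) ^ (L - I)

/-- coefficient of the defect -/
noncomputable def coefB (q : ℝ) (N M I i : ℕ) : ℝ :=
  (N.choose i : ℝ) * (M.choose (I - 1 - i) : ℝ) * (q ^ 2) ^ (N + M + 1 - I)

/-- law of the refined observation -/
noncomputable def P0 (q : ℝ) (N M I : ℕ) (c : Fin I → Fin 3) : ℝ :=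
  q * coefA q (N + M) I * ∏ l, wt q (c l)
    + (1 - q) * ∑ i : Fin I, coefB q N M I i *
      ∏ l, (if l = i then (if c l = 1 then (1:ℝ) else 0) else wt q (c l))

lemma unit_pow (q : ℝ) (L : ℕ) :
    (D q [false, true]) ^ L = ∑ I ∈ range (L + 1), coefA q L I • X q ^ I := by
  rw [D_unit, add_comm]
  have hc : Commute (X q) ((q ^ 2) • (1 : Op)) := by
    apply Commute.smul_right
    exact Commute.one_right _
  rw [hc.add_pow]
  apply Finset.sum_congr rfl
  intro I _
  unfold coefA
  rw [smul_pow, one_pow, mul_smul_comm, mul_one, ← nsmul_eq_mul', smul_comm, ← Nat.cast_smul_eq_nsmul ℝ,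
    smul_smul, mul_comm]

lemma sum_double {A : Type*} [AddCommMonoid A] (N M : ℕ) (G : ℕ → ℕ → A)
    (hG : ∀ i j, (N < i ∨ M < j) → G i j = 0) :
    ∑ i ∈ range (N + 1), ∑ j ∈ range (M + 1), G i j
      = ∑ k ∈ range (N + M + 1), ∑ i ∈ range (k + 1), G i (k - i) := by
  have h1 : ∑ i ∈ range (N + 1), ∑ j ∈ range (M + 1), G i j
      = ∑ p ∈ range (N + 1) ×ˢ range (M + 1), G p.1 p.2 := by
    rw [Finset.sum_product]
  rw [h1, ← Finset.sum_fiberwise_of_maps_to (s := range (N + 1) ×ˢ range (M + 1))
    (t := range (N + M + 1)) (g := fun p => p.1 + p.2)]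
  · apply Finset.sum_congr rfl
    intro k _
    rw [← Finset.Nat.sum_antidiagonal_eq_sum_range_succ (fun i j => G i j) k]
    apply Finset.sum_subset_zero_on_sdiff
    · intro p hp
      simp only [Finset.mem_filter, Finset.mem_product, Finset.mem_range] at hp
      rw [Finset.HasAntidiagonal.mem_antidiagonal]
      exact hp.2
    · intro p hp
      simp only [Finset.mem_sdiff, Finset.HasAntidiagonal.mem_antidiagonal, Finset.mem_filter,
        Finset.mem_product, Finset.mem_range, not_and] at hp
      apply hG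
      by_contra hcon
      push Not at hcon
      exact hp.2 ⟨by omega, by omega⟩ hp.1
    · intro p _
      rfl
  · intro p hp
    simp only [Finset.mem_product, Finset.mem_range] at hp ⊢
    omega

lemma defect_expand (q : ℝ) (N M : ℕ) :
    (D q [false, true]) ^ N * S [true] * (D q [false, true]) ^ M
      = ∑ I ∈ range (N + M + 2), ∑ i : Fin I,
        coefB q N M I i • (X q ^ (i : ℕ) * S [true] * X q ^ (I - 1 - (i : ℕ))) := by
  rw [unit_pow, unit_pow, Finset.sum_mul, Finset.sum_mul]
  have h1 : ∀ i ∈ range (N + 1), coefA q N i • X q ^ i * S [true] *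
        ∑ j ∈ range (M + 1), coefA q M j • X q ^ j
      = ∑ j ∈ range (M + 1), (coefA q N i * coefA q M j) • (X q ^ i * S [true] * X q ^ j) := by
    intro i _
    rw [Finset.mul_sum]
    apply Finset.sum_congr rfl
    intro j _
    rw [smul_mul_assoc, smul_mul_smul_comm]
  rw [Finset.sum_congr rfl h1, sum_double N M
    (fun i j => (coefA q N i * coefA q M j) • (X q ^ i * S [true] * X q ^ j))]
  · rw [show N + M + 2 = (N + M + 1) + 1 by ring, Finset.sum_range_succ' _ (N + M + 1)]
    simp only [Finset.univ_eq_empty, Finset.sum_empty, add_zero]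
    apply Finset.sum_congr rfl
    intro k hk
    rw [Finset.sum_range]
    apply Finset.sum_congr rfl
    intro i _
    have hik : (i : ℕ) ≤ k := by have := i.isLt; omega
    have hk' : k ≤ N + M := by have := Finset.mem_range.mp hk; omega
    have e1 : k + 1 - 1 - (i : ℕ) = k - (i : ℕ) := by omega
    rw [e1]
    congr 1
    unfold coefA coefB
    rw [e1]
    by_cases hN : (i : ℕ) ≤ N
    · by_cases hM : k - (i : ℕ) ≤ M
      · have : N + M + 1 - (k + 1) = (N - (i : ℕ)) + (M - (k - (i : ℕ))) := by omega
        rw [this, pow_add]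
        ring
      · rw [Nat.choose_eq_zero_of_lt (show M < k - (i : ℕ) by omega)]
        simp
    · rw [Nat.choose_eq_zero_of_lt (show N < (i : ℕ) by omega)]
      simp
  · intro i j hij
    unfold coefA
    rcases hij with h | h
    · rw [Nat.choose_eq_zero_of_lt h]; simp
    · rw [Nat.choose_eq_zero_of_lt h]; simp

theorem law_rep (q : ℝ) (N M : ℕ) :
    D q (rep N ++ [true] ++ rep M)
      = ∑ I ∈ range (N + M + 2), ∑ c : Fin I → Fin 3, P0 q N M I c • S (word c) := by
  rw [D_append, D_append, D_rep, D_rep]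
  have h1 : D q [true] = q • (1 : Op) + (1 - q) • S [true] := by
    simp [D]
  rw [h1]
  have h2 : D q [false, true] ^ N * (q • (1 : Op) + (1 - q) • S [true]) * D q [false, true] ^ M
      = q • (D q [false, true] ^ (N + M)) + (1 - q) •
        (D q [false, true] ^ N * S [true] * D q [false, true] ^ M) := by
    rw [mul_add, add_mul, mul_smul_comm, mul_smul_comm, smul_mul_assoc, smul_mul_assoc, mul_one,
      pow_add]
  rw [h2, unit_pow, defect_expand]
  have h3 : ∑ I ∈ range (N + M + 1), coefA q (N + M) I • X q ^ I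
      = ∑ I ∈ range (N + M + 2), coefA q (N + M) I • X q ^ I := by
    rw [Finset.sum_range_succ _ (N + M + 1)]
    have : coefA q (N + M) (N + M + 1) = 0 := by
      unfold coefA
      rw [Nat.choose_eq_zero_of_lt (by omega)]
      simp
    rw [this, zero_smul, add_zero]
  rw [h3, Finset.smul_sum, Finset.smul_sum, ← Finset.sum_add_distrib]
  apply Finset.sum_congr rfl
  intro I _
  unfold P0
  simp only [add_smul]
  rw [Finset.sum_add_distrib]
  congr 1
  · rw [X_pow, Finset.smul_sum, Finset.smul_sum]
    apply Finset.sum_congr rfl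
    intro c _
    rw [smul_smul, smul_smul]
  · simp only [XYX, Finset.smul_sum, smul_smul]
    rw [Finset.sum_comm]
    apply Finset.sum_congr rfl
    intro c _
    rw [← Finset.sum_smul]
    congr 1
    rw [Finset.mul_sum]

end Vale.Agent.Helper25.TR
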