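import Mathlib
import Vale.Agent.Helper25.TRDefs
import Vale.Agent.Helper25.TRAlg
import Vale.Agent.Helper25.TRRep
import Vale.Agent.Helper25.TRComb
import Vale.Agent.Helper25.TRMom

namespace Vale.Agent.Helper25.TR

open Finset

/-- product weight of a chunk sequence -/
noncomputable def wprod (q : ℝ) {I : ℕ} (c : Fin I → Fin 3) : ℝ := ∏ l, wt q (c l)

/-- product weight with a distinguished chunk -/
noncomputable def Rw (q : ℝ) {I : ℕ} (i : Fin I) (c : Fin I → Fin 3) : ℝ :=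
  ∏ l, (if l = i then (if c l = 1 then (1:ℝ) else 0) else wt q (c l))

lemma wt_pos {q : ℝ} (h0 : 0 < q) (h1 : q < 1) (a : Fin 3) : 0 < wt q a := by
  have : 0 < 1 - q := by linarith
  fin_cases a <;> simp [wt] <;> positivity

lemma wt_sum (q : ℝ) : ∑ a, wt q a = 1 - q ^ 2 := by
  rw [Fin.sum_univ_three]
  simp only [wt, Matrix.cons_val_zero, Matrix.cons_val_one, Matrix.cons_val]
  ring

lemma wprod_pos {q : ℝ} (h0 : 0 < q) (h1 : q < 1) {I : ℕ} (c : Fin I → Fin 3) :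
    0 < wprod q c := Finset.prod_pos (fun l _ => wt_pos h0 h1 _)

lemma wt_one (q : ℝ) : wt q 1 = q * (1 - q) := by simp [wt]

lemma Rw_nonneg {q : ℝ} (h0 : 0 < q) (h1 : q < 1) {I : ℕ} (i : Fin I) (c : Fin I → Fin 3) :
    0 ≤ Rw q i c := by
  apply Finset.prod_nonneg
  intro l _
  split_ifs
  · norm_num
  · exact le_rfl
  · exact (wt_pos h0 h1 _).le

lemma Rw_eq {q : ℝ} (h0 : 0 < q) (h1 : q < 1) {I : ℕ} (i : Fin I) (c : Fin I → Fin 3) :
    Rw q i c = (if c i = 1 then (1:ℝ) else 0) * (wprod q c / wt q 1) := by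
  unfold Rw wprod
  rw [← Finset.mul_prod_erase Finset.univ _ (Finset.mem_univ i),
    ← Finset.mul_prod_erase Finset.univ (fun j => wt q (c j)) (Finset.mem_univ i)]
  have h : ∏ l ∈ Finset.univ.erase i, (if l = i then (if c l = 1 then (1:ℝ) else 0) else wt q (c l))
      = ∏ l ∈ Finset.univ.erase i, wt q (c l) := by
    apply Finset.prod_congr rfl
    intro l hl
    rw [if_neg (Finset.ne_of_mem_erase hl)]
  rw [h, if_pos rfl]
  by_cases hc : c i = 1
  · rw [if_pos hc, hc]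
    have := (wt_pos h0 h1 1).ne'
    field_simp
  · rw [if_neg hc]; ring

lemma P0_def' (q : ℝ) (N M I : ℕ) (c : Fin I → Fin 3) :
    P0 q N M I c = q * coefA q (N + M) I * wprod q c
      + (1 - q) * ∑ i : Fin I, coefB q N M I i * Rw q i c := rfl

lemma coefA_nonneg (q : ℝ) (L I : ℕ) : 0 ≤ coefA q L I := by unfold coefA; positivity

lemma coefB_nonneg (q : ℝ) (N M I i : ℕ) : 0 ≤ coefB q N M I i := by unfold coefB; positivity

lemma P0_ge {q : ℝ} (h0 : 0 < q) (h1 : q < 1) (N M I : ℕ) (c : Fin I → Fin 3) :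
    q * coefA q (N + M) I * wprod q c ≤ P0 q N M I c := by
  rw [P0_def']
  have : 0 ≤ (1 - q) * ∑ i : Fin I, coefB q N M I i * Rw q i c :=
    mul_nonneg (by linarith) (Finset.sum_nonneg (fun i _ => mul_nonneg (coefB_nonneg _ _ _ _ _)
      (Rw_nonneg h0 h1 i c)))
  linarith

lemma P0_nonneg {q : ℝ} (h0 : 0 < q) (h1 : q < 1) (N M I : ℕ) (c : Fin I → Fin 3) :
    0 ≤ P0 q N M I c :=
  le_trans (mul_nonneg (mul_nonneg h0.le (coefA_nonneg _ _ _)) (wprod_pos h0 h1 c).le)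
    (P0_ge h0 h1 N M I c)

/-- sum over chunk sequences of the squared linear statistic -/
lemma sum_sq_lin {q : ℝ} (h0 : 0 < q) (h1 : q < 1) {I : ℕ} (g : Fin I → ℝ)
    (hg : ∑ i, g i = 0) :
    ∑ c : Fin I → Fin 3, wprod q c * (∑ i, g i * (if c i = 1 then (1:ℝ) else 0)) ^ 2
      ≤ (1 - q ^ 2) ^ I * (wt q 1 / (1 - q ^ 2)) * ∑ i, g i ^ 2 := by
  have hθ : 0 < 1 - q ^ 2 := by nlinarith
  have hm := (second_moment I (fun a => wt q a / (1 - q ^ 2))
    (fun a => if a = 1 then (1:ℝ) else 0)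
    (by rw [← Finset.sum_div, wt_sum, div_self hθ.ne']) g).2.2
  rw [hg] at hm
  have e1 : ∑ a : Fin 3, wt q a / (1 - q ^ 2) * (if a = 1 then (1:ℝ) else 0) ^ 2
      = wt q 1 / (1 - q ^ 2) := by
    rw [Fin.sum_univ_three]; simp
  have e2 : ∀ c : Fin I → Fin 3, wprod q c
      = (1 - q ^ 2) ^ I * ∏ l, (wt q (c l) / (1 - q ^ 2)) := by
    intro c
    unfold wprod
    rw [Finset.prod_div_distrib, Finset.prod_const, Finset.card_univ, Fintype.card_fin]
    field_simp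
  have e3 : ∑ c : Fin I → Fin 3, wprod q c * (∑ i, g i * (if c i = 1 then (1:ℝ) else 0)) ^ 2
      = (1 - q ^ 2) ^ I * ∑ c : Fin I → Fin 3, (∏ l, (wt q (c l) / (1 - q ^ 2))) *
        (∑ i, g i * (if c i = 1 then (1:ℝ) else 0)) ^ 2 := by
    rw [Finset.mul_sum]
    apply Finset.sum_congr rfl
    intro c _
    rw [e2 c]; ring
  rw [e3, hm, e1, mul_assoc]
  apply mul_le_mul_of_nonneg_left _ (pow_nonneg hθ.le I)
  have hs : 0 ≤ ∑ i, g i ^ 2 := Finset.sum_nonneg (fun i _ => sq_nonneg _)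
  nlinarith [sq_nonneg (∑ a : Fin 3, wt q a / (1 - q ^ 2) * (if a = 1 then (1:ℝ) else 0)),
    mul_nonneg (sq_nonneg (∑ a : Fin 3, wt q a / (1 - q ^ 2) * (if a = 1 then (1:ℝ) else 0))) hs]

/-- elementary inequality for square roots -/
lemma sqrt_diff_sq {a b r : ℝ} (hr : 0 < r) (ha : r ≤ a) (hb : r ≤ b) :
    (√a - √b) ^ 2 ≤ (a - b) ^ 2 / (2 * r) := by
  have ha0 : 0 ≤ a := by linarith
  have hb0 : 0 ≤ b := by linarith
  have h1 := Real.sq_sqrt ha0
  have h2 := Real.sq_sqrt hb0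
  have h3 := Real.sqrt_nonneg a
  have h4 := Real.sqrt_nonneg b
  rw [le_div_iff₀ (by positivity)]
  have h5 : (a - b) ^ 2 = (√a - √b) ^ 2 * (√a + √b) ^ 2 := by
    rw [← mul_pow]
    congr 1
    nlinarith
  rw [h5]
  apply mul_le_mul_of_nonneg_left _ (sq_nonneg _)
  nlinarith [mul_nonneg h3 h4]

lemma sqrt_diff_sq' {a b : ℝ} (ha : 0 ≤ a) (hb : 0 ≤ b) : (√a - √b) ^ 2 ≤ a + b := by
  have h1 := Real.sq_sqrt ha
  have h2 := Real.sq_sqrt hb
  nlinarith [mul_nonneg (Real.sqrt_nonneg a) (Real.sqrt_nonneg b)]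

/-- the `I`-th piece of the squared Hellinger distance -/
noncomputable def HI (q : ℝ) (K I : ℕ) : ℝ :=
  ∑ c : Fin I → Fin 3, (√(P0 q (K+1) K I c) - √(P0 q K (K+1) I c)) ^ 2

lemma HI_le {q : ℝ} (h0 : 0 < q) (h1 : q < 1) (K I : ℕ) (hI : I ≤ 2 * K + 1)
    (hg : ∑ i : Fin I, (coefB q (K+1) K I i - coefB q K (K+1) I i) = 0) :
    HI q K I ≤ (1 - q) / (2 * q ^ 2 * (1 - q ^ 2)) * ((1 - q ^ 2) ^ I / coefA q (2 * K + 1) I)
      * ∑ i : Fin I, (coefB q (K+1) K I i - coefB q K (K+1) I i) ^ 2 := by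
  have hθ : 0 < 1 - q ^ 2 := by nlinarith
  have h1q : 0 < 1 - q := by linarith
  have hA : 0 < coefA q (2 * K + 1) I := by
    unfold coefA
    have := Nat.choose_pos hI
    positivity
  have hw1 := wt_pos h0 h1 1
  set g : Fin I → ℝ := fun i => coefB q (K+1) K I i - coefB q K (K+1) I i with hgdef
  have e1 : K + 1 + K = 2 * K + 1 := by ring
  have e2 : K + (K + 1) = 2 * K + 1 := by ring
  have hterm : ∀ c : Fin I → Fin 3, (√(P0 q (K+1) K I c) - √(P0 q K (K+1) I c)) ^ 2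
      ≤ ((1 - q) ^ 2 / (2 * q * coefA q (2 * K + 1) I * wt q 1 ^ 2)) *
        (wprod q c * (∑ i, g i * (if c i = 1 then (1:ℝ) else 0)) ^ 2) := by
    intro c
    have hw := wprod_pos h0 h1 c
    have hr : 0 < q * coefA q (2 * K + 1) I * wprod q c := by positivity
    have g1 := P0_ge h0 h1 (K+1) K I c
    have g2 := P0_ge h0 h1 K (K+1) I c
    rw [e1] at g1
    rw [e2] at g2
    refine (sqrt_diff_sq hr g1 g2).trans (le_of_eq ?_)
    have hdiff : P0 q (K+1) K I c - P0 q K (K+1) I c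
        = (1 - q) * (wprod q c / wt q 1) * (∑ i, g i * (if c i = 1 then (1:ℝ) else 0)) := by
      rw [P0_def', P0_def', e1, e2]
      have : ∑ i : Fin I, coefB q (K+1) K I i * Rw q i c - ∑ i : Fin I, coefB q K (K+1) I i * Rw q i c
          = (wprod q c / wt q 1) * ∑ i, g i * (if c i = 1 then (1:ℝ) else 0) := by
        rw [← Finset.sum_sub_distrib, Finset.mul_sum]
        apply Finset.sum_congr rfl
        intro i _
        rw [Rw_eq h0 h1]
        simp only [hgdef]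
        ring
      linear_combination (1 - q) * this
    rw [hdiff]
    field_simp
  unfold HI
  refine (Finset.sum_le_sum (fun c _ => hterm c)).trans ?_
  rw [← Finset.mul_sum]
  have hs := sum_sq_lin h0 h1 g hg
  have hcoef : 0 ≤ (1 - q) ^ 2 / (2 * q * coefA q (2 * K + 1) I * wt q 1 ^ 2) := by positivity
  refine (mul_le_mul_of_nonneg_left hs hcoef).trans (le_of_eq ?_)
  rw [wt_one]
  field_simp
  rfl

/-- coefficients of the difference -/
lemma g_eq (q : ℝ) (K k : ℕ) (i : ℕ) (hi : i ≤ k) (hk : k ≤ 2 * K + 1) :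
    ((K : ℝ) + 1) * (coefB q (K+1) K (k+1) i - coefB q K (K+1) (k+1) i)
      = (q ^ 2) ^ (2 * K + 1 - k) * (((K+1).choose i : ℝ) * ((K+1).choose (k - i) : ℝ) *
        (2 * (i : ℝ) - k)) := by
  have hc : ∀ j : ℕ, (K.choose j : ℝ) * ((K : ℝ) + 1) = ((K+1).choose j : ℝ) * ((K : ℝ) + 1 - j) := by
    intro j
    by_cases hj : j ≤ K + 1
    · have := Nat.choose_mul_succ_eq K j
      have h2 : ((K.choose j : ℕ) : ℝ) * ((K + 1 : ℕ) : ℝ)
        = ((K+1).choose j : ℝ) * ((K + 1 - j : ℕ) : ℝ) := by exact_mod_cast this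
      rw [Nat.cast_sub hj] at h2
      push_cast at h2
      exact h2
    · rw [Nat.choose_eq_zero_of_lt (show K < j by omega),
        Nat.choose_eq_zero_of_lt (show K + 1 < j by omega)]
      simp
  unfold coefB
  have e0 : k + 1 - 1 - i = k - i := by omega
  have e1 : K + 1 + K + 1 - (k + 1) = 2 * K + 1 - k := by omega
  have e2 : K + (K + 1) + 1 - (k + 1) = 2 * K + 1 - k := by omega
  rw [e0, e1, e2]
  have h1 := hc i
  have h2 := hc (k - i)
  have h3 : ((k - i : ℕ) : ℝ) = (k : ℝ) - i := Nat.cast_sub hi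
  rw [h3] at h2
  linear_combination ((K+1).choose i : ℝ) * (q ^ 2) ^ (2 * K + 1 - k) * h2
    - ((K+1).choose (k - i) : ℝ) * (q ^ 2) ^ (2 * K + 1 - k) * h1

lemma sum_g_zero (q : ℝ) (K k : ℕ) :
    ∑ i : Fin (k+1), (coefB q (K+1) K (k+1) i - coefB q K (K+1) (k+1) i) = 0 := by
  rw [Finset.sum_sub_distrib, sub_eq_zero]
  have h : ∀ N M : ℕ, N + M = 2 * K + 1 → ∑ i : Fin (k+1), coefB q N M (k+1) i
      = ((2 * K + 1).choose k : ℝ) * (q ^ 2) ^ (2 * K + 1 - k) := by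
    intro N M hNM
    rw [← Finset.sum_range (fun i => coefB q N M (k+1) i)]
    unfold coefB
    have e0 : ∀ i, k + 1 - 1 - i = k - i := fun i => by omega
    have e1 : N + M + 1 - (k + 1) = 2 * K + 1 - k := by omega
    simp only [e0, e1]
    rw [← Finset.sum_mul, ← hNM, Nat.add_choose_eq,
      ← Finset.Nat.sum_antidiagonal_eq_sum_range_succ (fun i j => (N.choose i : ℝ) * (M.choose j : ℝ)) k]
    push_cast
    rfl
  rw [h (K+1) K (by ring), h K (K+1) (by ring)]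

lemma sum_g_sq (q : ℝ) (K k : ℕ) (hk : k ≤ 2 * K) :
    ∑ i : Fin (k+1), (coefB q (K+1) K (k+1) i - coefB q K (K+1) (k+1) i) ^ 2
      ≤ ((q ^ 2) ^ (2 * K + 1 - k)) ^ 2 / ((K : ℝ) + 1) * ((2 * (K+1)).choose k : ℝ) *
        (((2 * (K+1)).choose k : ℝ) *
          √(4 * ((K : ℝ) + 1) / (((k : ℝ) + 1) * (2 * ((K : ℝ) + 1) - k + 1)))) := by
  have hK1 : (0:ℝ) < (K : ℝ) + 1 := by positivity
  have hkr : (k : ℝ) ≤ 2 * K := by exact_mod_cast hk
  set Mx : ℝ := ((2 * (K+1)).choose k : ℝ) *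
    √(4 * ((K : ℝ) + 1) / (((k : ℝ) + 1) * (2 * ((K : ℝ) + 1) - k + 1))) with hMx
  have hz : (0:ℝ) < 2 * ((K : ℝ) + 1) - k + 1 := by linarith
  have hMx0 : 0 ≤ Mx := mul_nonneg (Nat.cast_nonneg _) (Real.sqrt_nonneg _)
  have hpair : ∀ i ≤ k, ((K+1).choose i : ℝ) * ((K+1).choose (k - i) : ℝ) ≤ Mx := by
    intro i hi
    have hb := pair_bound (K+1) k i (by omega) (by omega) hi
    have hbr : (((K+1).choose i : ℝ) * ((K+1).choose (k - i) : ℝ)) ^ 2 *
        (((k : ℝ) + 1) * (2 * ((K : ℝ) + 1) - k + 1))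
        ≤ ((2 * (K+1)).choose k : ℝ) ^ 2 * (4 * ((K : ℝ) + 1)) := by
      have h2 : ((((K+1).choose i * (K+1).choose (k - i)) ^ 2 *
          ((k + 1) * (2 * (K+1) - k + 1)) : ℕ) : ℝ)
          ≤ ((((2 * (K+1)).choose k) ^ 2 * (4 * (K+1)) : ℕ) : ℝ) := by exact_mod_cast hb
      push_cast [Nat.cast_sub (show k ≤ 2 * (K+1) by omega)] at h2
      exact h2
    refine le_trans (le_abs_self _) (abs_le_of_sq_le_sq ?_ hMx0)
    rw [hMx, mul_pow ((2 * (K+1)).choose k : ℝ), Real.sq_sqrt (by positivity), mul_div_assoc',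
      le_div_iff₀ (by positivity)]
    exact hbr
  have hterm : ∀ i ∈ range (k+1), (coefB q (K+1) K (k+1) i - coefB q K (K+1) (k+1) i) ^ 2
      ≤ (((q ^ 2) ^ (2 * K + 1 - k)) ^ 2 / ((K : ℝ) + 1) ^ 2 * Mx) *
        (((K+1).choose i : ℝ) * ((K+1).choose (k - i) : ℝ) * (2 * (i : ℝ) - k) ^ 2) := by
    intro i hi
    have hik : i ≤ k := by have := Finset.mem_range.mp hi; omega
    have hg := g_eq q K k i hik (by omega)
    have hg2 : coefB q (K+1) K (k+1) i - coefB q K (K+1) (k+1) i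
        = (q ^ 2) ^ (2 * K + 1 - k) * (((K+1).choose i : ℝ) * ((K+1).choose (k - i) : ℝ) *
        (2 * (i : ℝ) - k)) / ((K : ℝ) + 1) := by
      rw [← hg]; field_simp
    rw [hg2]
    have hp := hpair i hik
    have h0 : (0:ℝ) ≤ ((K+1).choose i : ℝ) * ((K+1).choose (k - i) : ℝ) := by positivity
    have : ((q ^ 2) ^ (2 * K + 1 - k) * (((K+1).choose i : ℝ) * ((K+1).choose (k - i) : ℝ) *
        (2 * (i : ℝ) - k)) / ((K : ℝ) + 1)) ^ 2
        = (((q ^ 2) ^ (2 * K + 1 - k)) ^ 2 / ((K : ℝ) + 1) ^ 2) *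
          ((((K+1).choose i : ℝ) * ((K+1).choose (k - i) : ℝ)) *
          (((K+1).choose i : ℝ) * ((K+1).choose (k - i) : ℝ) * (2 * (i : ℝ) - k) ^ 2)) := by
      field_simp
    rw [this, mul_assoc (((q ^ 2) ^ (2 * K + 1 - k)) ^ 2 / ((K : ℝ) + 1) ^ 2) Mx]
    apply mul_le_mul_of_nonneg_left _ (by positivity)
    apply mul_le_mul_of_nonneg_right hp (by positivity)
  rw [← Finset.sum_range (fun i => (coefB q (K+1) K (k+1) i - coefB q K (K+1) (k+1) i) ^ 2)]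
  refine (Finset.sum_le_sum hterm).trans ?_
  rw [← Finset.mul_sum]
  have hV := V_bound (K+1) k (by omega)
  push_cast at hV
  have hc : 0 ≤ ((q ^ 2) ^ (2 * K + 1 - k)) ^ 2 / ((K : ℝ) + 1) ^ 2 * Mx := by positivity
  refine (mul_le_mul_of_nonneg_left hV hc).trans (le_of_eq ?_)
  field_simp

end Vale.Agent.Helper25.TR
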