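import Mathlib
import Vale.Agent.Helper25.TRDefs

namespace Vale.Agent.Helper25.TR

open Finset

/-- change of observation space for one sample gives the same for `m` samples -/
lemma multi_sample {Γ Ω : Type*} [Fintype Γ] [Fintype Ω] (μ : Γ → ℝ) (t : Γ → List Bool)
    (P : Ω → ℝ) (φ : Ω → List Bool)
    (h : ∀ f : List Bool → ℝ, ∑ s, μ s * f (t s) = ∑ ω, P ω * f (φ ω)) (m : ℕ) :
    ∀ F : (Fin m → List Bool) → ℝ,
      ∑ s : Fin m → Γ, (∏ j, μ (s j)) * F (fun j => t (s j))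
        = ∑ ω : Fin m → Ω, (∏ j, P (ω j)) * F (fun j => φ (ω j)) := by
  induction m with
  | zero =>
    intro F
    simp only [Finset.univ_unique, Finset.univ_eq_empty, Finset.prod_empty, one_mul,
      Finset.sum_singleton]
    congr 1
    funext j
    exact j.elim0
  | succ m ih =>
    intro F
    rw [← (Fin.consEquiv (fun _ : Fin (m+1) => Γ)).sum_comp,
      ← (Fin.consEquiv (fun _ : Fin (m+1) => Ω)).sum_comp, Fintype.sum_prod_type,
      Fintype.sum_prod_type]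
    simp only [Fin.consEquiv_apply, Fin.prod_univ_succ, Fin.cons_zero, Fin.cons_succ]
    have key : ∀ (s₀ : Γ) (s : Fin m → Γ),
        (fun j : Fin (m+1) => t ((Fin.cons s₀ s : Fin (m+1) → Γ) j))
          = (Fin.cons (t s₀) (fun j => t (s j)) : Fin (m+1) → List Bool) := by
      intro s₀ s
      funext j
      refine Fin.cases ?_ (fun j => ?_) j
      · simp
      · simp
    have key' : ∀ (s₀ : Ω) (s : Fin m → Ω),
        (fun j : Fin (m+1) => φ ((Fin.cons s₀ s : Fin (m+1) → Ω) j))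
          = (Fin.cons (φ s₀) (fun j => φ (s j)) : Fin (m+1) → List Bool) := by
      intro s₀ s
      funext j
      refine Fin.cases ?_ (fun j => ?_) j
      · simp
      · simp
    simp only [key, key']
    have h1 : ∀ s₀ : Γ, ∑ s : Fin m → Γ, (μ s₀ * ∏ j, μ (s j)) *
          F (Fin.cons (t s₀) (fun j => t (s j)))
        = μ s₀ * ∑ ω : Fin m → Ω, (∏ j, P (ω j)) * F (Fin.cons (t s₀) (fun j => φ (ω j))) := by
      intro s₀
      rw [← ih (fun w => F (Fin.cons (t s₀) w)), Finset.mul_sum]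
      apply Finset.sum_congr rfl
      intro s _
      ring
    rw [Finset.sum_congr rfl (fun s₀ _ => h1 s₀)]
    rw [h (fun v => ∑ ω : Fin m → Ω, (∏ j, P (ω j)) * F (Fin.cons v (fun j => φ (ω j))))]
    apply Finset.sum_congr rfl
    intro ω₀ _
    rw [Finset.mul_sum]
    apply Finset.sum_congr rfl
    intro ω _
    ring

/-- Hellinger form of Le Cam's two point method. -/
lemma two_point {Ω : Type*} [Fintype Ω] (P Q e₁ e₂ : Ω → ℝ) (hP : ∀ ω, 0 ≤ P ω)
    (hQ : ∀ ω, 0 ≤ Q ω) (hP1 : ∑ ω, P ω = 1) (hQ1 : ∑ ω, Q ω = 1) (he1 : ∀ ω, 0 ≤ e₁ ω)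
    (he2 : ∀ ω, 0 ≤ e₂ ω) (he : ∀ ω, e₁ ω + e₂ ω ≤ 1)
    (h1 : 2 / 3 ≤ ∑ ω, P ω * e₁ ω) (h2 : 2 / 3 ≤ ∑ ω, Q ω * e₂ ω) :
    (∑ ω, √(P ω) * √(Q ω)) ^ 2 ≤ 8 / 9 := by
  set B := ∑ ω, √(P ω) * √(Q ω) with hB
  have hA : 2 / 3 ≤ ∑ ω, |P ω - Q ω| := by
    have hle : ∀ ω, P ω * e₁ ω + Q ω * e₂ ω ≤ (P ω + Q ω) / 2 + |P ω - Q ω| / 2 := by
      intro ω
      have a1 := he1 ω
      have a2 := he2 ω
      have a3 := he ω
      have a4 := hP ω
      have a5 := hQ ω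
      rcases abs_cases (P ω - Q ω) with ⟨h, h'⟩ | ⟨h, h'⟩
      · rw [h]; nlinarith
      · rw [h]; nlinarith
    have hs := Finset.sum_le_sum (fun ω (_ : ω ∈ (Finset.univ : Finset Ω)) => hle ω)
    rw [Finset.sum_add_distrib, Finset.sum_add_distrib, ← Finset.sum_div, ← Finset.sum_div,
      Finset.sum_add_distrib, hP1, hQ1] at hs
    linarith
  have hcs := Finset.sum_mul_sq_le_sq_mul_sq (Finset.univ : Finset Ω)
    (fun ω => |√(P ω) - √(Q ω)|) (fun ω => √(P ω) + √(Q ω))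
  have e1 : ∀ ω, |√(P ω) - √(Q ω)| * (√(P ω) + √(Q ω)) = |P ω - Q ω| := by
    intro ω
    have : 0 ≤ √(P ω) + √(Q ω) := add_nonneg (Real.sqrt_nonneg _) (Real.sqrt_nonneg _)
    rw [← abs_of_nonneg this, ← abs_mul]
    congr 1
    have := Real.mul_self_sqrt (hP ω)
    have := Real.mul_self_sqrt (hQ ω)
    nlinarith
  have e2 : ∑ ω, |√(P ω) - √(Q ω)| ^ 2 = 2 - 2 * B := by
    have : ∀ ω, |√(P ω) - √(Q ω)| ^ 2 = P ω + Q ω - 2 * (√(P ω) * √(Q ω)) := by
      intro ω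
      rw [sq_abs]
      have a := Real.sq_sqrt (hP ω)
      have b := Real.sq_sqrt (hQ ω)
      nlinarith
    rw [Finset.sum_congr rfl (fun ω _ => this ω), Finset.sum_sub_distrib,
      Finset.sum_add_distrib, hP1, hQ1, ← Finset.mul_sum]
    ring
  have e3 : ∑ ω, (√(P ω) + √(Q ω)) ^ 2 = 2 + 2 * B := by
    have : ∀ ω, (√(P ω) + √(Q ω)) ^ 2 = P ω + Q ω + 2 * (√(P ω) * √(Q ω)) := by
      intro ω
      have a := Real.sq_sqrt (hP ω)
      have b := Real.sq_sqrt (hQ ω)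
      nlinarith
    rw [Finset.sum_congr rfl (fun ω _ => this ω), Finset.sum_add_distrib,
      Finset.sum_add_distrib, hP1, hQ1, ← Finset.mul_sum]
    ring
  simp only [e1] at hcs
  rw [e2, e3] at hcs
  nlinarith

/-- If `x ≠ y` have trace laws represented by `P`, `Q` on a common finite observation space,
then `m` traces can only suffice if `m * h ≥ 1/9`, where `h` is the squared Hellinger distance. -/
theorem samples_lower {n : ℕ} (q : ℝ) {Ω : Type*} [Fintype Ω] (φ : Ω → List Bool)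
    (P Q : Ω → ℝ) (hP : ∀ ω, 0 ≤ P ω) (hQ : ∀ ω, 0 ≤ Q ω) (x y : Fin n → Bool) (hxy : x ≠ y)
    (hPx : ∀ f : List Bool → ℝ, ∑ s, survProb q s * f (trace x s) = ∑ ω, P ω * f (φ ω))
    (hQy : ∀ f : List Bool → ℝ, ∑ s, survProb q s * f (trace y s) = ∑ ω, Q ω * f (φ ω))
    (hP1 : ∑ ω, P ω = 1) (hQ1 : ∑ ω, Q ω = 1) (m : ℕ) (hm : Suffices q n m) :
    1 / 9 ≤ m * ∑ ω, (√(P ω) - √(Q ω)) ^ 2 := by
  obtain ⟨E, hE⟩ := hm
  have h1 := hE x
  have h2 := hE y
  unfold successProb at h1 h2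
  rw [multi_sample (survProb q) (trace x) P φ hPx m (fun w => E.prob w x)] at h1
  rw [multi_sample (survProb q) (trace y) Q φ hQy m (fun w => E.prob w y)] at h2
  have hpow : ∀ R : Ω → ℝ, ∑ ω : Fin m → Ω, ∏ j, R (ω j) = (∑ ω, R ω) ^ m := by
    intro R
    rw [← Fintype.sum_pow]
  have hB := two_point (fun ω : Fin m → Ω => ∏ j, P (ω j)) (fun ω : Fin m → Ω => ∏ j, Q (ω j))
    (fun ω => E.prob (fun j => φ (ω j)) x) (fun ω => E.prob (fun j => φ (ω j)) y)
    (fun ω => Finset.prod_nonneg (fun j _ => hP _)) (fun ω => Finset.prod_nonneg (fun j _ => hQ _))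
    (by rw [hpow, hP1, one_pow]) (by rw [hpow, hQ1, one_pow])
    (fun ω => E.nonneg _ _) (fun ω => E.nonneg _ _)
    (by
      intro ω
      rw [← E.sum_eq_one (fun j => φ (ω j)), ← Finset.sum_pair hxy]
      exact Finset.sum_le_sum_of_subset_of_nonneg (Finset.subset_univ _)
        (fun i _ _ => E.nonneg _ _)) h1 h2
  have hBB : ∑ ω : Fin m → Ω, √(∏ j, P (ω j)) * √(∏ j, Q (ω j))
      = (∑ ω, √(P ω) * √(Q ω)) ^ m := by
    rw [← hpow]
    apply Finset.sum_congr rfl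
    intro ω _
    rw [Real.sqrt_prod _ (fun j _ => hP _), Real.sqrt_prod _ (fun j _ => hQ _),
      Finset.prod_mul_distrib]
  rw [hBB] at hB
  set b := ∑ ω, √(P ω) * √(Q ω) with hb
  set h := ∑ ω, (√(P ω) - √(Q ω)) ^ 2 with hh
  have hbh : b = 1 - h / 2 := by
    have : h = 2 - 2 * b := by
      rw [hh, hb, Finset.mul_sum]
      have : ∀ ω, (√(P ω) - √(Q ω)) ^ 2 = P ω + Q ω - 2 * (√(P ω) * √(Q ω)) := by
        intro ω
        have a := Real.sq_sqrt (hP ω)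
        have b := Real.sq_sqrt (hQ ω)
        nlinarith
      rw [Finset.sum_congr rfl (fun ω _ => this ω), Finset.sum_sub_distrib,
        Finset.sum_add_distrib, hP1, hQ1]
      ring
    linarith
  have hb0 : 0 ≤ b := Finset.sum_nonneg (fun ω _ => mul_nonneg (Real.sqrt_nonneg _)
    (Real.sqrt_nonneg _))
  have hbern : 1 + ((2 * m : ℕ) : ℝ) * (-h / 2) ≤ (1 + (-h / 2)) ^ (2 * m) :=
    one_add_mul_le_pow (by linarith) (2 * m)
  have e : (1 + (-h / 2)) ^ (2 * m) = (b ^ m) ^ 2 := by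
    rw [hbh, ← pow_mul, mul_comm m 2]
    congr 1
    ring
  rw [e] at hbern
  push_cast at hbern
  nlinarith

end Vale.Agent.Helper25.TR
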