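import Mathlib
import Vale.Agent.Helper25.TRDefs
import Vale.Agent.Helper25.TRAlg
import Vale.Agent.Helper25.TRRep
import Vale.Agent.Helper25.TRComb
import Vale.Agent.Helper25.TRMom
import Vale.Agent.Helper25.TRBound

namespace Vale.Agent.Helper25.TR

open Finset

/-- numeric estimate -/
lemma E_bound (N κ z ν : ℝ) (hN : 1 ≤ N) (hν : 0 < ν) (hν2 : ν ^ 2 = N) (hκ : 0 < κ)
    (hκN : κ ≤ 2 * N) (hz : 3 ≤ z) :
    2 * κ / ((z - 1) * (z - 2)) * √(4 * N / (κ * z))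
      ≤ 26 * (1 / ν ^ 3 + 20 / 9 * ν ^ 3 * (1 / (z * (z + 1) * (z + 2)))) := by
  have hz1 : 0 < z - 1 := by linarith
  have hz2 : 0 < z - 2 := by linarith
  have hz0 : 0 < z := by linarith
  have hN0 : 0 < N := by linarith
  have hq : 2 / 9 * z ^ 2 ≤ (z - 1) * (z - 2) := by nlinarith
  have hsq : (2 * κ / ((z - 1) * (z - 2)) * √(4 * N / (κ * z))) ^ 2 ≤ 648 * N ^ 2 / z ^ 5 := by
    rw [mul_pow, Real.sq_sqrt (by positivity), div_pow, div_mul_div_comm,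
      div_le_div_iff₀ (by positivity) (by positivity)]
    have h1 : (2 / 9 * z ^ 2) ^ 2 ≤ ((z - 1) * (z - 2)) ^ 2 :=
      pow_le_pow_left₀ (by positivity) hq 2
    calc (2 * κ) ^ 2 * (4 * N) * z ^ 5 = 16 * N * κ ^ 2 * z ^ 5 := by ring
      _ = (κ * N * z) * (16 * κ) * z ^ 4 := by ring
      _ ≤ (κ * N * z) * (16 * (2 * N)) * z ^ 4 := by
          apply mul_le_mul_of_nonneg_right _ (by positivity)
          apply mul_le_mul_of_nonneg_left _ (by positivity)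
          linarith
      _ = 648 * N ^ 2 * ((2 / 9 * z ^ 2) ^ 2 * (κ * z)) := by ring
      _ ≤ 648 * N ^ 2 * (((z - 1) * (z - 2)) ^ 2 * (κ * z)) := by
          apply mul_le_mul_of_nonneg_left _ (by positivity)
          exact mul_le_mul_of_nonneg_right h1 (by positivity)
  have hE0 : 0 ≤ 2 * κ / ((z - 1) * (z - 2)) * √(4 * N / (κ * z)) := by positivity
  have hA : 0 ≤ 1 / ν ^ 3 := by positivity
  have hB : 0 ≤ 20 / 9 * ν ^ 3 * (1 / (z * (z + 1) * (z + 2))) := by positivity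
  rcases le_total N z with h | h
  · have h2 : (2 * κ / ((z - 1) * (z - 2)) * √(4 * N / (κ * z))) ^ 2 ≤ (26 * (1 / ν ^ 3)) ^ 2 := by
      refine hsq.trans ?_
      have hν6 : (ν ^ 3) ^ 2 = N ^ 3 := by rw [← hν2]; ring
      rw [mul_pow, div_pow, one_pow, hν6, mul_one_div, div_le_div_iff₀ (by positivity) (by positivity)]
      have h5 : N ^ 5 ≤ z ^ 5 := pow_le_pow_left₀ hN0.le h 5
      nlinarith [pow_pos hN0 5]
    have := abs_le_of_sq_le_sq h2 (by positivity)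
    rw [abs_of_nonneg hE0] at this
    linarith
  · have h2 : (2 * κ / ((z - 1) * (z - 2)) * √(4 * N / (κ * z))) ^ 2 ≤ (26 * (ν ^ 3 / z ^ 3)) ^ 2 := by
      refine hsq.trans ?_
      have hν6 : (ν ^ 3) ^ 2 = N ^ 3 := by rw [← hν2]; ring
      rw [mul_pow, div_pow, hν6, mul_div_assoc', div_le_div_iff₀ (by positivity) (by positivity)]
      have : 648 * N ^ 2 * (z ^ 3) ^ 2 = 648 * N ^ 2 * z * z ^ 5 := by ring
      rw [this]
      have : (26:ℝ) ^ 2 * N ^ 3 * z ^ 5 = 676 * N ^ 2 * N * z ^ 5 := by ring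
      rw [this]
      apply mul_le_mul_of_nonneg_right _ (by positivity)
      nlinarith [pow_pos hN0 2, mul_le_mul_of_nonneg_left h (by positivity : 0 ≤ 648 * N ^ 2),
        pow_pos hN0 3]
    have := abs_le_of_sq_le_sq h2 (by positivity)
    rw [abs_of_nonneg hE0] at this
    have h3 : ν ^ 3 / z ^ 3 ≤ 20 / 9 * ν ^ 3 * (1 / (z * (z + 1) * (z + 2))) := by
      rw [mul_one_div, div_le_div_iff₀ (by positivity) (by positivity)]
      have : z * (z + 1) * (z + 2) ≤ 20 / 9 * z ^ 3 := by nlinarith [pow_pos hz0 2, pow_pos hz0 3]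
      calc ν ^ 3 * (z * (z + 1) * (z + 2)) ≤ ν ^ 3 * (20 / 9 * z ^ 3) :=
            mul_le_mul_of_nonneg_left this (by positivity)
        _ = _ := by ring
    linarith

lemma choose_rel (K k : ℕ) (hk : k ≤ 2 * K) :
    ((2 * K + 1).choose (k + 1) : ℝ) * (2 * ((K : ℝ) + 1) * ((k : ℝ) + 1))
      = ((2 * (K + 1)).choose k : ℝ) * ((2 * ((K : ℝ) + 1) - k) * (2 * ((K : ℝ) + 1) - k - 1)) := by
  have h1 := Nat.choose_succ_right_eq (2 * (K + 1)) k
  have h2 := Nat.choose_mul_succ_eq (2 * K + 1) (k + 1)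
  have h1r : ((2 * (K + 1)).choose (k + 1) : ℝ) * ((k : ℝ) + 1)
      = ((2 * (K + 1)).choose k : ℝ) * (2 * ((K : ℝ) + 1) - k) := by
    have : (((2 * (K + 1)).choose (k + 1) * (k + 1) : ℕ) : ℝ)
      = (((2 * (K + 1)).choose k * (2 * (K + 1) - k) : ℕ) : ℝ) := by exact_mod_cast h1
    push_cast [Nat.cast_sub (show k ≤ 2 * (K + 1) by omega)] at this
    exact this
  have h2r : ((2 * K + 1).choose (k + 1) : ℝ) * (2 * ((K : ℝ) + 1))
      = ((2 * (K + 1)).choose (k + 1) : ℝ) * (2 * ((K : ℝ) + 1) - k - 1) := by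
    have : (((2 * K + 1).choose (k + 1) * (2 * K + 1 + 1) : ℕ) : ℝ)
      = (((2 * K + 1 + 1).choose (k + 1) * (2 * K + 1 + 1 - (k + 1)) : ℕ) : ℝ) := by
      exact_mod_cast h2
    rw [Nat.cast_mul, Nat.cast_mul, Nat.cast_sub (show k + 1 ≤ 2 * K + 1 + 1 by omega)] at this
    push_cast at this
    rw [show 2 * (K + 1) = 2 * K + 1 + 1 by ring]
    have e4 : (2 * ((K : ℝ) + 1) - k - 1) = (2 * (K : ℝ) + 1 + 1 - (k + 1)) := by ring
    have e5 : (2 * ((K : ℝ) + 1)) = (2 * (K : ℝ) + 1 + 1) := by ring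
    rw [e4, e5]
    exact this
  calc ((2 * K + 1).choose (k + 1) : ℝ) * (2 * ((K : ℝ) + 1) * ((k : ℝ) + 1))
      = (((2 * K + 1).choose (k + 1) : ℝ) * (2 * ((K : ℝ) + 1))) * ((k : ℝ) + 1) := by ring
    _ = (((2 * (K + 1)).choose (k + 1) : ℝ) * ((k : ℝ) + 1)) * (2 * ((K : ℝ) + 1) - k - 1) := by
        rw [h2r]; ring
    _ = _ := by rw [h1r]; ring

/-- weight of the binomial law with `2(K+1)` trials -/
noncomputable def binw (q : ℝ) (K k : ℕ) : ℝ :=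
  ((2 * (K + 1)).choose k : ℝ) * (1 - q ^ 2) ^ k * (q ^ 2) ^ (2 * (K + 1) - k)

lemma HI_succ_le {q : ℝ} (h0 : 0 < q) (h1 : q < 1) (K k : ℕ) (hk : k ≤ 2 * K) :
    HI q K (k + 1) ≤ ((1 - q) / (2 * q ^ 2)) * (binw q K k *
      (2 * ((k : ℝ) + 1) / (((2 * ((K : ℝ) + 1) - k + 1) - 1) * ((2 * ((K : ℝ) + 1) - k + 1) - 2))
        * √(4 * ((K : ℝ) + 1) / (((k : ℝ) + 1) * (2 * ((K : ℝ) + 1) - k + 1))))) := by
  have hθ : 0 < 1 - q ^ 2 := by nlinarith
  have h1q : 0 < 1 - q := by linarith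
  have hkr : (k : ℝ) ≤ 2 * K := by exact_mod_cast hk
  have hK1 : (0:ℝ) < (K : ℝ) + 1 := by positivity
  set s := √(4 * ((K : ℝ) + 1) / (((k : ℝ) + 1) * (2 * ((K : ℝ) + 1) - k + 1))) with hs
  have hs0 : 0 ≤ s := Real.sqrt_nonneg _
  have hA : 0 < coefA q (2 * K + 1) (k + 1) := by
    unfold coefA
    have := Nat.choose_pos (show k + 1 ≤ 2 * K + 1 by omega)
    positivity
  refine (HI_le h0 h1 K (k+1) (by omega) (sum_g_zero q K k)).trans ?_
  have hg := sum_g_sq q K k hk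
  rw [← hs] at hg
  have hc : 0 ≤ (1 - q) / (2 * q ^ 2 * (1 - q ^ 2)) *
      ((1 - q ^ 2) ^ (k + 1) / coefA q (2 * K + 1) (k + 1)) := by positivity
  refine (mul_le_mul_of_nonneg_left hg hc).trans (le_of_eq ?_)
  have hrel := choose_rel K k hk
  unfold coefA binw
  have hch : (0:ℝ) < ((2 * K + 1).choose (k + 1) : ℝ) := by
    exact_mod_cast Nat.choose_pos (show k + 1 ≤ 2 * K + 1 by omega)
  have e1 : 2 * K + 1 - (k + 1) = 2 * K - k := by omega
  have e2 : 2 * K + 1 - k = (2 * K - k) + 1 := by omega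
  have e3 : 2 * (K + 1) - k = (2 * K - k) + 2 := by omega
  rw [e1, e2, e3]
  have hz1 : (0:ℝ) < 2 * ((K : ℝ) + 1) - k := by linarith
  have hz2 : (0:ℝ) < 2 * ((K : ℝ) + 1) - k - 1 := by linarith
  have hz1' : (2 * ((K : ℝ) + 1) - k + 1) - 1 = 2 * ((K : ℝ) + 1) - k := by ring
  have hz2' : (2 * ((K : ℝ) + 1) - k + 1) - 2 = 2 * ((K : ℝ) + 1) - k - 1 := by ring
  rw [hz1', hz2']
  set c2 : ℝ := ((2 * (K + 1)).choose k : ℝ) with hc2
  set c1 : ℝ := ((2 * K + 1).choose (k + 1) : ℝ) with hc1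
  set t : ℝ := (q ^ 2) ^ (2 * K - k) with ht
  have htpos : 0 < t := by positivity
  have hk1 : (0:ℝ) < (k : ℝ) + 1 := by positivity
  -- c1 * (2 (K+1) (k+1)) = c2 * z1 z2
  have key : c2 / c1 = 2 * ((K : ℝ) + 1) * ((k : ℝ) + 1) /
      ((2 * ((K : ℝ) + 1) - k) * (2 * ((K : ℝ) + 1) - k - 1)) := by
    rw [div_eq_div_iff hch.ne' (by positivity)]
    linarith
  have expand : (1 - q) / (2 * q ^ 2 * (1 - q ^ 2)) * ((1 - q ^ 2) ^ (k + 1) / (c1 * t)) *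
      (((q ^ 2) ^ (2 * K - k + 1)) ^ 2 / ((K : ℝ) + 1) * c2 * (c2 * s))
      = (1 - q) / (2 * q ^ 2) * (c2 * (1 - q ^ 2) ^ k * (t * (q ^ 2) ^ 2)) * s *
        (c2 / c1) / ((K : ℝ) + 1) := by
    rw [pow_succ (q ^ 2) (2 * K - k), ← ht, pow_succ (1 - q ^ 2) k]
    field_simp
  rw [expand, key, pow_add (q ^ 2) (2 * K - k) 2, ← ht]
  field_simp

end Vale.Agent.Helper25.TR
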