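import Mathlib
import Vale.Agent.Helper25.TRDefs
import Vale.Agent.Helper25.TRAlg
import Vale.Agent.Helper25.TRRep
import Vale.Agent.Helper25.TRComb
import Vale.Agent.Helper25.TRMom
import Vale.Agent.Helper25.TRBound
import Vale.Agent.Helper25.TRSum

namespace Vale.Agent.Helper25.TR

open Finset

lemma sum_coefB (q : ℝ) (N M K k : ℕ) (hNM : N + M = 2 * K + 1) :
    ∑ i : Fin (k+1), coefB q N M (k+1) i
      = ((2 * K + 1).choose k : ℝ) * (q ^ 2) ^ (2 * K + 1 - k) := by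
  rw [← Finset.sum_range (fun i => coefB q N M (k+1) i)]
  unfold coefB
  have e0 : ∀ i, k + 1 - 1 - i = k - i := fun i => by omega
  have e1 : N + M + 1 - (k + 1) = 2 * K + 1 - k := by omega
  simp only [e0, e1]
  rw [← Finset.sum_mul, ← hNM, Nat.add_choose_eq,
    ← Finset.Nat.sum_antidiagonal_eq_sum_range_succ (fun i j => (N.choose i : ℝ) * (M.choose j : ℝ)) k]
  push_cast
  rfl

lemma sum_Rw (q : ℝ) {I : ℕ} (i : Fin I) :
    ∑ c : Fin I → Fin 3, Rw q i c = (1 - q ^ 2) ^ (I - 1) := by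
  unfold Rw
  have h := (Finset.prod_univ_sum (fun _ : Fin I => (Finset.univ : Finset (Fin 3)))
    (fun l a => if l = i then (if a = 1 then (1:ℝ) else 0) else wt q a)).symm
  rw [Fintype.piFinset_univ] at h
  rw [h, ← Finset.mul_prod_erase Finset.univ _ (Finset.mem_univ i)]
  have h2 : ∏ l ∈ Finset.univ.erase i, ∑ a : Fin 3,
      (if l = i then (if a = 1 then (1:ℝ) else 0) else wt q a)
      = ∏ l ∈ Finset.univ.erase i, (1 - q ^ 2) := by
    apply Finset.prod_congr rfl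
    intro l hl
    simp only [if_neg (Finset.ne_of_mem_erase hl)]
    exact wt_sum q
  rw [h2, Finset.prod_const, Finset.card_erase_of_mem (Finset.mem_univ i), Finset.card_univ,
    Fintype.card_fin]
  simp

lemma sum_P0_top (q : ℝ) (N M K : ℕ) (hNM : N + M = 2 * K + 1) :
    ∑ c : Fin (2 * K + 2) → Fin 3, P0 q N M (2 * K + 2) c = (1 - q) * (1 - q ^ 2) ^ (2 * K + 1) := by
  have hA : coefA q (N + M) (2 * K + 2) = 0 := by
    unfold coefA
    rw [Nat.choose_eq_zero_of_lt (by omega)]; simp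
  simp only [P0_def', hA, mul_zero, zero_mul, zero_add]
  rw [← Finset.mul_sum, Finset.sum_comm]
  congr 1
  simp only [← Finset.mul_sum, sum_Rw]
  rw [← Finset.sum_mul]
  have hB := sum_coefB q N M K (2 * K + 1) hNM
  rw [Nat.choose_self, Nat.sub_self] at hB
  rw [show (2 * K + 2) = 2 * K + 1 + 1 from rfl, hB]
  simp

lemma HI_top {q : ℝ} (h0 : 0 < q) (h1 : q < 1) (K : ℕ) :
    HI q K (2 * K + 2) ≤ 2 * (1 - q) * (1 - q ^ 2) ^ (2 * K + 1) := by
  unfold HI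
  calc ∑ c : Fin (2 * K + 2) → Fin 3, (√(P0 q (K+1) K (2 * K + 2) c)
        - √(P0 q K (K+1) (2 * K + 2) c)) ^ 2
      ≤ ∑ c : Fin (2 * K + 2) → Fin 3, (P0 q (K+1) K (2 * K + 2) c
        + P0 q K (K+1) (2 * K + 2) c) :=
        Finset.sum_le_sum (fun c _ => sqrt_diff_sq' (P0_nonneg h0 h1 _ _ _ c)
          (P0_nonneg h0 h1 _ _ _ c))
    _ = 2 * (1 - q) * (1 - q ^ 2) ^ (2 * K + 1) := by
        rw [Finset.sum_add_distrib, sum_P0_top q (K+1) K K (by ring),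
          sum_P0_top q K (K+1) K (by ring)]
        ring

lemma HI_nonneg (q : ℝ) (K I : ℕ) : 0 ≤ HI q K I :=
  Finset.sum_nonneg (fun _ _ => sq_nonneg _)

lemma HI_zero {q : ℝ} (h0 : 0 < q) (h1 : q < 1) (K : ℕ) : HI q K 0 ≤ 0 := by
  have := HI_le h0 h1 K 0 (by omega) (by simp)
  simpa using this

/-- the constant -/
noncomputable def Cq (q : ℝ) : ℝ :=
  (1 - q) / (2 * q ^ 2) * (26 * (1 + 1 / (q ^ 2) ^ 3)) + 2 * (1 - q) / ((1 - q ^ 2) * (q ^ 2) ^ 3)

lemma Cq_pos {q : ℝ} (h0 : 0 < q) (h1 : q < 1) : 0 < Cq q := by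
  have hθ : 0 < 1 - q ^ 2 := by nlinarith
  have h1q : 0 < 1 - q := by linarith
  unfold Cq
  positivity

theorem H_total {q : ℝ} (h0 : 0 < q) (h1 : q < 1) (K : ℕ) :
    ∑ I ∈ range (2 * K + 3), HI q K I ≤ Cq q / (√((K : ℝ) + 1)) ^ 3 := by
  have hθ : 0 < 1 - q ^ 2 := by nlinarith
  have h1q : 0 < 1 - q := by linarith
  have hη : 0 < q ^ 2 := by positivity
  set ν := √((K : ℝ) + 1) with hν
  have hK1 : (0:ℝ) < (K : ℝ) + 1 := by positivity
  have hν0 : 0 < ν := Real.sqrt_pos.mpr hK1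
  have hν2 : ν ^ 2 = (K : ℝ) + 1 := Real.sq_sqrt hK1.le
  have hKge : (1:ℝ) ≤ (K : ℝ) + 1 := by
    have : (0:ℝ) ≤ K := Nat.cast_nonneg _
    linarith
  -- negative moment
  have hnm := neg_moment (2 * (K + 1)) (1 - q ^ 2) (q ^ 2) hθ.le hη (by ring)
  set W : ℕ → ℝ := fun k => 1 / (((2 * ((K : ℝ) + 1)) - k + 1) * ((2 * ((K : ℝ) + 1)) - k + 2) *
    ((2 * ((K : ℝ) + 1)) - k + 3)) with hW
  have hnm' : ∑ k ∈ range (2 * (K + 1) + 1), binw q K k * W k
      ≤ 1 / (8 * ν ^ 6 * (q ^ 2) ^ 3) := by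
    have hle : 1 / (((2 * (K + 1) : ℕ) : ℝ) + 1) / ((((2 * (K + 1) : ℕ) : ℝ) + 2) *
        (((2 * (K + 1) : ℕ) : ℝ) + 3) * (q ^ 2) ^ 3) ≤ 1 / (8 * ν ^ 6 * (q ^ 2) ^ 3) := by
      rw [div_div]
      apply one_div_le_one_div_of_le (by positivity)
      have h6 : ν ^ 6 = ((K : ℝ) + 1) ^ 3 := by rw [← hν2]; ring
      rw [h6]
      push_cast
      have hp : (0:ℝ) < (q ^ 2) ^ 3 := by positivity
      have : 8 * ((K : ℝ) + 1) ^ 3 ≤ (2 * ((K : ℝ) + 1) + 1) * ((2 * ((K : ℝ) + 1) + 2) *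
          (2 * ((K : ℝ) + 1) + 3)) := by
        nlinarith [pow_pos hK1 2, pow_pos hK1 3]
      calc 8 * ((K : ℝ) + 1) ^ 3 * (q ^ 2) ^ 3 ≤ ((2 * ((K : ℝ) + 1) + 1) *
            ((2 * ((K : ℝ) + 1) + 2) * (2 * ((K : ℝ) + 1) + 3))) * (q ^ 2) ^ 3 :=
            mul_le_mul_of_nonneg_right this hp.le
        _ = _ := by ring
    have hnm2 : ∑ k ∈ range (2 * (K + 1) + 1), binw q K k * W k
        ≤ 1 / (((2 * (K + 1) : ℕ) : ℝ) + 1) / ((((2 * (K + 1) : ℕ) : ℝ) + 2) *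
        (((2 * (K + 1) : ℕ) : ℝ) + 3) * (q ^ 2) ^ 3) := by
      rw [div_div]
      refine le_trans (le_of_eq ?_) (hnm.trans (le_of_eq ?_))
      · apply Finset.sum_congr rfl
        intro k _
        simp only [hW, binw]
        push_cast
        rfl
      · congr 1
        ring
    exact hnm2.trans hle
  have hbin : ∑ k ∈ range (2 * (K + 1) + 1), binw q K k = 1 := by
    have : ∑ k ∈ range (2 * (K + 1) + 1), (1 - q ^ 2) ^ k * (q ^ 2) ^ (2 * (K + 1) - k) *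
        ((2 * (K + 1)).choose k : ℝ) = 1 := by
      rw [← add_pow]
      rw [show 1 - q ^ 2 + q ^ 2 = 1 by ring, one_pow]
    rw [← this]
    apply Finset.sum_congr rfl
    intro k _
    unfold binw
    ring
  have hbw : ∀ k, 0 ≤ binw q K k := by
    intro k; unfold binw; positivity
  have hWnn : ∀ k ∈ range (2 * (K + 1) + 1), 0 ≤ W k := by
    intro k hk
    have hk' : (k : ℝ) ≤ 2 * ((K : ℝ) + 1) := by
      have := Finset.mem_range.mp hk
      exact_mod_cast (show k ≤ 2 * (K + 1) by omega)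
    simp only [hW]
    have a1 : (0:ℝ) < 2 * ((K : ℝ) + 1) - k + 1 := by linarith
    have a2 : (0:ℝ) < 2 * ((K : ℝ) + 1) - k + 2 := by linarith
    have a3 : (0:ℝ) < 2 * ((K : ℝ) + 1) - k + 3 := by linarith
    positivity
  -- bulk terms
  have hbulk : ∑ k ∈ range (2 * K + 1), HI q K (k + 1)
      ≤ (1 - q) / (2 * q ^ 2) * (26 * (1 + 1 / (q ^ 2) ^ 3)) / ν ^ 3 := by
    have hterm : ∀ k ∈ range (2 * K + 1), HI q K (k + 1) ≤
        (1 - q) / (2 * q ^ 2) * (26 / ν ^ 3 * binw q K k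
          + 26 * (20 / 9) * ν ^ 3 * (binw q K k * W k)) := by
      intro k hk
      have hk' : k ≤ 2 * K := by have := Finset.mem_range.mp hk; omega
      have hkr : (k : ℝ) ≤ 2 * K := by exact_mod_cast hk'
      refine (HI_succ_le h0 h1 K k hk').trans ?_
      apply mul_le_mul_of_nonneg_left _ (by positivity)
      have hE := E_bound ((K : ℝ) + 1) ((k : ℝ) + 1) (2 * ((K : ℝ) + 1) - k + 1) ν hKge hν0 hν2
        (by positivity) (by linarith) (by linarith)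
      have hz2 : (2 * ((K : ℝ) + 1) - k + 1) + 1 = 2 * ((K : ℝ) + 1) - k + 2 := by ring
      have hz3 : (2 * ((K : ℝ) + 1) - k + 1) + 2 = 2 * ((K : ℝ) + 1) - k + 3 := by ring
      rw [hz2, hz3] at hE
      refine (mul_le_mul_of_nonneg_left hE (hbw k)).trans (le_of_eq ?_)
      simp only [hW]
      ring
    refine (Finset.sum_le_sum hterm).trans ?_
    rw [← Finset.mul_sum, Finset.sum_add_distrib, ← Finset.mul_sum, ← Finset.mul_sum, mul_div_assoc]
    apply mul_le_mul_of_nonneg_left _ (by positivity)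
    have hsub : range (2 * K + 1) ⊆ range (2 * (K + 1) + 1) := by
      intro k hk
      rw [Finset.mem_range] at hk ⊢
      omega
    have s1 : ∑ k ∈ range (2 * K + 1), binw q K k ≤ 1 := by
      rw [← hbin]
      exact Finset.sum_le_sum_of_subset_of_nonneg hsub (fun k _ _ => hbw k)
    have s2 : ∑ k ∈ range (2 * K + 1), binw q K k * W k ≤ 1 / (8 * ν ^ 6 * (q ^ 2) ^ 3) :=
      (Finset.sum_le_sum_of_subset_of_nonneg hsub
        (fun k hk _ => mul_nonneg (hbw k) (hWnn k hk))).trans hnm'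
    have t1 : 26 / ν ^ 3 * ∑ k ∈ range (2 * K + 1), binw q K k ≤ 26 / ν ^ 3 * 1 :=
      mul_le_mul_of_nonneg_left s1 (by positivity)
    have t2 : 26 * (20 / 9) * ν ^ 3 * ∑ k ∈ range (2 * K + 1), binw q K k * W k
        ≤ 26 * (20 / 9) * ν ^ 3 * (1 / (8 * ν ^ 6 * (q ^ 2) ^ 3)) :=
      mul_le_mul_of_nonneg_left s2 (by positivity)
    have t3 : 26 * (20 / 9) * ν ^ 3 * (1 / (8 * ν ^ 6 * (q ^ 2) ^ 3))
        ≤ 26 * (1 / (q ^ 2) ^ 3) / ν ^ 3 := by
      have : 26 * (20 / 9) * ν ^ 3 * (1 / (8 * ν ^ 6 * (q ^ 2) ^ 3))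
          = 26 * (20 / 72) * (1 / (q ^ 2) ^ 3) / ν ^ 3 := by
        field_simp
        ring
      rw [this]
      apply div_le_div_of_nonneg_right _ (by positivity)
      have : 0 < 1 / (q ^ 2) ^ 3 := by positivity
      nlinarith
    calc _ ≤ 26 / ν ^ 3 * 1 + 26 * (1 / (q ^ 2) ^ 3) / ν ^ 3 := by linarith
      _ = _ := by ring
  -- top term
  have htop : HI q K (2 * K + 2) ≤ 2 * (1 - q) / ((1 - q ^ 2) * (q ^ 2) ^ 3) / ν ^ 3 := by
    refine (HI_top h0 h1 K).trans ?_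
    have hlast : binw q K (2 * (K + 1)) * W (2 * (K + 1)) ≤ 1 / (8 * ν ^ 6 * (q ^ 2) ^ 3) := by
      refine le_trans ?_ hnm'
      exact Finset.single_le_sum (f := fun k => binw q K k * W k)
        (fun k hk => mul_nonneg (hbw k) (hWnn k hk))
        (Finset.mem_range.mpr (by omega))
    have hW1 : W (2 * (K + 1)) = 1 / 6 := by
      simp only [hW]
      push_cast
      norm_num
    have hb1 : binw q K (2 * (K + 1)) = (1 - q ^ 2) * (1 - q ^ 2) ^ (2 * K + 1) := by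
      unfold binw
      rw [Nat.choose_self, Nat.sub_self, show 2 * (K + 1) = (2 * K + 1) + 1 by ring, pow_succ]
      simp
      ring
    rw [hW1, hb1] at hlast
    have hν1 : 1 ≤ ν := by
      by_contra hcon
      push Not at hcon
      nlinarith
    have h63 : 1 / (8 * ν ^ 6 * (q ^ 2) ^ 3) ≤ 1 / (8 * ν ^ 3 * (q ^ 2) ^ 3) := by
      apply one_div_le_one_div_of_le (by positivity)
      have : ν ^ 3 ≤ ν ^ 6 := pow_le_pow_right₀ hν1 (by norm_num)
      have hp : (0:ℝ) < (q ^ 2) ^ 3 := by positivity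
      nlinarith
    have h7 : (1 - q ^ 2) ^ (2 * K + 1) ≤ 6 / (8 * ν ^ 3 * (q ^ 2) ^ 3) / (1 - q ^ 2) := by
      rw [le_div_iff₀ hθ]
      have := hlast.trans h63
      have e : 6 / (8 * ν ^ 3 * (q ^ 2) ^ 3) = 6 * (1 / (8 * ν ^ 3 * (q ^ 2) ^ 3)) := by ring
      rw [e]
      linarith
    calc 2 * (1 - q) * (1 - q ^ 2) ^ (2 * K + 1)
        ≤ 2 * (1 - q) * (6 / (8 * ν ^ 3 * (q ^ 2) ^ 3) / (1 - q ^ 2)) :=
          mul_le_mul_of_nonneg_left h7 (by positivity)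
      _ = (6 / 8) * (2 * (1 - q) / ((1 - q ^ 2) * (q ^ 2) ^ 3) / ν ^ 3) := by
          field_simp
      _ ≤ 1 * (2 * (1 - q) / ((1 - q ^ 2) * (q ^ 2) ^ 3) / ν ^ 3) := by
          apply mul_le_mul_of_nonneg_right (by norm_num) (by positivity)
      _ = _ := one_mul _
  rw [Finset.sum_range_succ' _ (2 * K + 2), show 2 * K + 2 = (2 * K + 1) + 1 from rfl,
    Finset.sum_range_succ _ (2 * K + 1)]
  have hz := HI_zero h0 h1 K
  have e2 : HI q K (2 * K + 1 + 1) = HI q K (2 * K + 2) := rfl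
  rw [e2]
  calc _ ≤ (1 - q) / (2 * q ^ 2) * (26 * (1 + 1 / (q ^ 2) ^ 3)) / ν ^ 3
        + 2 * (1 - q) / ((1 - q ^ 2) * (q ^ 2) ^ 3) / ν ^ 3 + 0 :=
        add_le_add (add_le_add hbulk htop) hz
    _ = Cq q / ν ^ 3 := by
        unfold Cq
        ring

end Vale.Agent.Helper25.TR
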