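import Mathlib
import Vale.Agent.Helper25.TRDefs
import Vale.Agent.Helper25.TRHell
import Vale.Agent.Helper25.TRAlg
import Vale.Agent.Helper25.TRRep
import Vale.Agent.Helper25.TRBound
import Vale.Agent.Helper25.TRTotal

namespace Vale.Agent.Helper25.TR

open Finset

/-- the two hard strings, padded -/
def strList (N M r : ℕ) : List Bool := (rep N ++ [true] ++ rep M) ++ List.replicate r false

lemma length_strList (N M r : ℕ) : (strList N M r).length = 2 * N + 1 + 2 * M + r := by
  simp [strList, length_rep]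
  ring

/-- a list of length `n` as a function -/
def toFn (l : List Bool) (n : ℕ) (h : l.length = n) : Fin n → Bool := fun i => l.get (i.cast h.symm)

lemma ofFn_toFn (l : List Bool) (n : ℕ) (h : l.length = n) : List.ofFn (toFn l n h) = l := by
  subst h
  exact List.ofFn_get l

lemma sum_survProb (q : ℝ) (n : ℕ) : ∑ s : Fin n → Bool, survProb q s = 1 := by
  unfold survProb
  have h := (Finset.prod_univ_sum (fun _ : Fin n => (Finset.univ : Finset Bool))
    (fun _ b => if b then 1 - q else q)).symm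
  rw [Fintype.piFinset_univ] at h
  rw [h]
  simp

lemma survProb_nonneg {q : ℝ} (h0 : 0 < q) (h1 : q < 1) {n : ℕ} (s : Fin n → Bool) :
    0 ≤ survProb q s := by
  apply Finset.prod_nonneg
  intro i _
  split_ifs <;> linarith

/-- refined observations -/
abbrev Obs (K r : ℕ) : Type := (Σ I : Fin (2 * K + 3), (Fin (I : ℕ) → Fin 3)) × (Fin r → Bool)

/-- law of the refined observation -/
noncomputable def PObs (q : ℝ) (N M K r : ℕ) (ω : Obs K r) : ℝ :=
  P0 q N M ω.1.1 ω.1.2 * survProb q ω.2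

/-- the word seen -/
def see (K r : ℕ) (ω : Obs K r) : List Bool :=
  word ω.1.2 ++ trace (fun _ => false) ω.2

lemma sum_Obs (K r : ℕ) (F : Obs K r → ℝ) :
    ∑ ω, F ω = ∑ I ∈ range (2 * K + 3), ∑ c : Fin I → Fin 3, ∑ s : Fin r → Bool,
      (if h : I < 2 * K + 3 then F (⟨⟨I, h⟩, c⟩, s) else 0) := by
  rw [Fintype.sum_prod_type, Fintype.sum_sigma]
  rw [Finset.sum_range (fun I => ∑ c : Fin I → Fin 3, ∑ s : Fin r → Bool,
      (if h : I < 2 * K + 3 then F (⟨⟨I, h⟩, c⟩, s) else 0))]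
  apply Finset.sum_congr rfl
  intro I _
  apply Finset.sum_congr rfl
  intro c _
  apply Finset.sum_congr rfl
  intro s _
  rw [dif_pos I.isLt]

lemma law_Obs (q : ℝ) (N M K r n : ℕ) (hNM : N + M = 2 * K + 1)
    (h : (strList N M r).length = n) (f : List Bool → ℝ) :
    ∑ s, survProb q s * f (trace (toFn (strList N M r) n h) s)
      = ∑ ω, PObs q N M K r ω * f (see K r ω) := by
  have h1 := law_eq q (toFn (strList N M r) n h) f []
  simp only [List.nil_append] at h1
  rw [h1, ofFn_toFn]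
  unfold strList
  rw [D_append, law_rep, sum_Obs]
  have e : N + M + 2 = 2 * K + 3 := by omega
  rw [e]
  rw [Module.End.mul_apply, LinearMap.sum_apply, Finset.sum_apply]
  apply Finset.sum_congr rfl
  intro I hI
  rw [LinearMap.sum_apply, Finset.sum_apply]
  apply Finset.sum_congr rfl
  intro c _
  have hI' := Finset.mem_range.mp hI
  rw [LinearMap.smul_apply, Pi.smul_apply, smul_eq_mul, S_apply, List.nil_append,
    ← List.ofFn_const, ← law_eq, Finset.mul_sum]
  apply Finset.sum_congr rfl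
  intro s _
  rw [dif_pos hI']
  unfold PObs see
  ring

lemma sum_PObs (q : ℝ) (N M K r : ℕ) (hNM : N + M = 2 * K + 1) :
    ∑ ω, PObs q N M K r ω = 1 := by
  have h := law_Obs q N M K r _ hNM rfl (fun _ => 1)
  simp only [mul_one] at h
  rw [← h, sum_survProb]

lemma hell_Obs {q : ℝ} (h0 : 0 < q) (h1 : q < 1) (K r : ℕ) :
    ∑ ω, (√(PObs q (K+1) K K r ω) - √(PObs q K (K+1) K r ω)) ^ 2
      = ∑ I ∈ range (2 * K + 3), HI q K I := by
  rw [sum_Obs]
  apply Finset.sum_congr rfl
  intro I hI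
  have hI' := Finset.mem_range.mp hI
  unfold HI
  apply Finset.sum_congr rfl
  intro c _
  have : ∀ s : Fin r → Bool, (if h : I < 2 * K + 3 then
      (√(PObs q (K+1) K K r (⟨⟨I, h⟩, c⟩, s)) - √(PObs q K (K+1) K r (⟨⟨I, h⟩, c⟩, s))) ^ 2 else 0)
      = survProb q s * (√(P0 q (K+1) K I c) - √(P0 q K (K+1) I c)) ^ 2 := by
    intro s
    rw [dif_pos hI']
    unfold PObs
    simp only
    rw [Real.sqrt_mul (P0_nonneg h0 h1 _ _ _ c), Real.sqrt_mul (P0_nonneg h0 h1 _ _ _ c)]
    have := Real.sq_sqrt (survProb_nonneg h0 h1 s)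
    calc (√(P0 q (K+1) K I c) * √(survProb q s) - √(P0 q K (K+1) I c) * √(survProb q s)) ^ 2
        = (√(survProb q s)) ^ 2 * (√(P0 q (K+1) K I c) - √(P0 q K (K+1) I c)) ^ 2 := by ring
      _ = _ := by rw [this]
  rw [Finset.sum_congr rfl (fun s _ => this s), ← Finset.sum_mul, sum_survProb, one_mul]

lemma strings_ne (K r n : ℕ) (h : (strList (K+1) K r).length = n)
    (h' : (strList K (K+1) r).length = n) :
    toFn (strList (K+1) K r) n h ≠ toFn (strList K (K+1) r) n h' := by
  intro heq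
  have h1 : List.ofFn (toFn (strList (K+1) K r) n h) = List.ofFn (toFn (strList K (K+1) r) n h') := by
    rw [heq]
  rw [ofFn_toFn, ofFn_toFn] at h1
  have hrep : rep (K+1) = rep K ++ [false, true] := by
    unfold rep
    rw [List.replicate_succ']
    simp
  have e1 : strList (K+1) K r = rep K ++ (false :: true :: true :: (rep K ++ List.replicate r false)) := by
    unfold strList
    rw [hrep]
    simp
  have e2 : strList K (K+1) r = rep K ++ (true :: (rep (K+1) ++ List.replicate r false)) := by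
    unfold strList
    simp
  rw [e1, e2] at h1
  have h2 := List.append_cancel_left h1
  simp at h2

theorem main_lower {q : ℝ} (h0 : 0 < q) (h1 : q < 1) (K r m : ℕ)
    (hm : Suffices q (4 * K + 3 + r) m) :
    (√((K : ℝ) + 1)) ^ 3 / (9 * Cq q) ≤ m := by
  have hl1 : (strList (K+1) K r).length = 4 * K + 3 + r := by rw [length_strList]; ring
  have hl2 : (strList K (K+1) r).length = 4 * K + 3 + r := by rw [length_strList]; ring
  have hnn : ∀ N M : ℕ, ∀ ω, 0 ≤ PObs q N M K r ω := fun N M ω =>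
    mul_nonneg (P0_nonneg h0 h1 _ _ _ _) (survProb_nonneg h0 h1 _)
  have h := samples_lower q (see K r) (PObs q (K+1) K K r) (PObs q K (K+1) K r)
    (hnn _ _) (hnn _ _) (toFn (strList (K+1) K r) _ hl1) (toFn (strList K (K+1) r) _ hl2)
    (strings_ne K r _ hl1 hl2)
    (law_Obs q (K+1) K K r _ (by ring) hl1) (law_Obs q K (K+1) K r _ (by ring) hl2)
    (sum_PObs q _ _ K r (by ring)) (sum_PObs q _ _ K r (by ring)) m hm
  rw [hell_Obs h0 h1] at h
  have hH := H_total h0 h1 K
  have hC := Cq_pos h0 h1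
  have hν : 0 < √((K : ℝ) + 1) := Real.sqrt_pos.mpr (by positivity)
  have h2 : (1:ℝ) / 9 ≤ m * (Cq q / (√((K : ℝ) + 1)) ^ 3) :=
    h.trans (mul_le_mul_of_nonneg_left hH (Nat.cast_nonneg m))
  rw [div_le_iff₀ (by positivity)]
  rw [mul_div_assoc', le_div_iff₀ (by positivity)] at h2
  linarith

lemma m_pos {q : ℝ} {n m : ℕ} (hn : 1 ≤ n) (hm : Suffices q n m) : 1 ≤ m := by
  by_contra hcon
  have : m = 0 := by omega
  subst this
  obtain ⟨E, hE⟩ := hm
  have key : ∀ x : Fin n → Bool, successProb q E x = E.prob (fun j => j.elim0) x := by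
    intro x
    unfold successProb
    rw [Fintype.sum_unique]
    simp only [Finset.univ_eq_empty, Finset.prod_empty, one_mul]
    congr 1
    funext j
    exact j.elim0
  have hne : (fun _ : Fin n => true) ≠ (fun _ : Fin n => false) := by
    intro h
    have := congrFun h ⟨0, hn⟩
    simp at this
  have h1 := hE (fun _ => true)
  have h2 := hE (fun _ => false)
  rw [key] at h1 h2
  have h3 := E.sum_eq_one (fun j => j.elim0)
  have h4 : E.prob (fun j => j.elim0) (fun _ => true) + E.prob (fun j => j.elim0) (fun _ => false)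
      ≤ ∑ x, E.prob (fun j => j.elim0) x := by
    rw [← Finset.sum_pair hne]
    exact Finset.sum_le_sum_of_subset_of_nonneg (Finset.subset_univ _)
      (fun i _ _ => E.nonneg _ _)
  linarith

theorem lower_bound {q : ℝ} (h0 : 0 < q) (h1 : q < 1) :
    ∃ c : ℝ, 0 < c ∧ ∀ n m : ℕ, 1 ≤ n → Suffices q n m → c * (n : ℝ) ^ (3 / 2 : ℝ) ≤ m := by
  have hC := Cq_pos h0 h1
  refine ⟨min (1 / 3) (1 / (387 * Cq q)), by positivity, ?_⟩
  intro n m hn hm
  have hn0 : (0:ℝ) ≤ n := Nat.cast_nonneg n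
  have hpow : (n : ℝ) ^ (3 / 2 : ℝ) = (√(n : ℝ)) ^ 3 := by
    rw [Real.sqrt_eq_rpow, ← Real.rpow_natCast, ← Real.rpow_mul hn0]
    norm_num
  rw [hpow]
  have hs0 : 0 ≤ √(n : ℝ) := Real.sqrt_nonneg _
  rcases Nat.lt_or_ge n 3 with h3 | h3
  · have hm1 := m_pos hn hm
    have hm1' : (1:ℝ) ≤ m := by exact_mod_cast hm1
    have hs : √(n : ℝ) ≤ 1.42 := by
      rw [Real.sqrt_le_left (by norm_num)]
      have : (n:ℝ) ≤ 2 := by exact_mod_cast (by omega : n ≤ 2)
      norm_num; linarith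
    have hs3 : (√(n : ℝ)) ^ 3 ≤ 3 := by
      calc (√(n : ℝ)) ^ 3 ≤ (1.42:ℝ) ^ 3 := pow_le_pow_left₀ hs0 hs 3
        _ ≤ 3 := by norm_num
    calc min (1 / 3) (1 / (387 * Cq q)) * (√(n : ℝ)) ^ 3 ≤ (1 / 3) * 3 :=
          mul_le_mul (min_le_left _ _) hs3 (by positivity) (by norm_num)
      _ ≤ m := by linarith
  · set K := (n + 1) / 4 - 1 with hK
    have hK1 : 4 * K + 3 ≤ n := by omega
    have hK2 : n ≤ 12 * (K + 1) := by omega
    obtain ⟨r, hr⟩ : ∃ r, n = 4 * K + 3 + r := ⟨n - (4 * K + 3), by omega⟩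
    rw [hr] at hm
    have hml := main_lower h0 h1 K r m hm
    set ν := √((K : ℝ) + 1) with hν
    have hν0 : 0 < ν := Real.sqrt_pos.mpr (by positivity)
    have hν2 : ν ^ 2 = (K : ℝ) + 1 := Real.sq_sqrt (by positivity)
    have hsn : √(n : ℝ) ≤ 3.5 * ν := by
      rw [Real.sqrt_le_left (by positivity)]
      have : (n:ℝ) ≤ 12 * ((K : ℝ) + 1) := by exact_mod_cast hK2
      nlinarith
    have hs3 : (√(n : ℝ)) ^ 3 ≤ 43 * ν ^ 3 := by
      calc (√(n : ℝ)) ^ 3 ≤ (3.5 * ν) ^ 3 := pow_le_pow_left₀ hs0 hsn 3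
        _ = 42.875 * ν ^ 3 := by ring
        _ ≤ 43 * ν ^ 3 := by
            apply mul_le_mul_of_nonneg_right (by norm_num) (by positivity)
    calc min (1 / 3) (1 / (387 * Cq q)) * (√(n : ℝ)) ^ 3
        ≤ (1 / (387 * Cq q)) * (43 * ν ^ 3) :=
          mul_le_mul (min_le_right _ _) hs3 (by positivity) (by positivity)
      _ = ν ^ 3 / (9 * Cq q) := by
          field_simp
          norm_num
      _ ≤ m := hml

end Vale.Agent.Helper25.TR
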