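import Mathlib
import Vale.Agent.Helper25.TRDefs
import Vale.Agent.Helper25.TRFinal

namespace Vale.Agent.Helper25.TR

open Finset

open Classical in
/-- the estimator that outputs a trace of full length if there is one -/
noncomputable def outFn (n m : ℕ) (w : Fin m → List Bool) : Fin n → Bool :=
  if h : ∃ j, (w j).length = n then toFn (w h.choose) n h.choose_spec else fun _ => false

open Classical in
/-- the corresponding estimator -/
noncomputable def fullEst (n m : ℕ) : Estimator n m where
  prob w x := if x = outFn n m w then 1 else 0
  nonneg w x := by split_ifs <;> norm_num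
  sum_eq_one w := by simp

lemma trace_length_eq {n : ℕ} (x s : Fin n → Bool) (h : (trace x s).length = n) :
    s = fun _ => true := by
  unfold trace at h
  rw [List.length_map] at h
  have h2 : ((List.finRange n).filter (fun i => s i)).length = (List.finRange n).length := by
    rw [h, List.length_finRange]
  rw [List.length_filter_eq_length_iff] at h2
  funext i
  exact h2 i (List.mem_finRange i)

lemma trace_all {n : ℕ} (x : Fin n → Bool) : trace x (fun _ => true) = List.ofFn x := by
  unfold trace
  simp [List.ofFn_eq_map]

lemma outFn_eq {n m : ℕ} (x : Fin n → Bool) (s : Fin m → Fin n → Bool)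
    (h : ∃ j, s j = fun _ => true) : outFn n m (fun j => trace x (s j)) = x := by
  classical
  have hex : ∃ j, (trace x (s j)).length = n := by
    obtain ⟨j, hj⟩ := h
    exact ⟨j, by rw [hj, trace_all]; simp⟩
  unfold outFn
  rw [dif_pos hex]
  have hall := trace_length_eq x _ hex.choose_spec
  have : List.ofFn (toFn (trace x (s hex.choose)) n hex.choose_spec) = List.ofFn x := by
    rw [ofFn_toFn, hall, trace_all]
  exact List.ofFn_injective this

theorem exists_suffices {q : ℝ} (h0 : 0 < q) (h1 : q < 1) (n : ℕ) : ∃ m, Suffices q n m := by
  classical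
  have hp : 0 < (1 - q) ^ n := pow_pos (by linarith) n
  have hp1 : (1 - q) ^ n ≤ 1 := pow_le_one₀ (by linarith) (by linarith)
  obtain ⟨m, hm⟩ := exists_pow_lt_of_lt_one (show (0:ℝ) < 1 / 3 by norm_num)
    (show 1 - (1 - q) ^ n < 1 by linarith)
  refine ⟨m, fullEst n m, fun x => ?_⟩
  have htot : ∑ s : Fin m → Fin n → Bool, ∏ j, survProb q (s j) = 1 := by
    have h := (Finset.prod_univ_sum (fun _ : Fin m => (Finset.univ : Finset (Fin n → Bool)))
      (fun _ s => survProb q s)).symm
    rw [Fintype.piFinset_univ] at h
    rw [h]
    simp [sum_survProb]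
  have hbad : ∑ s : Fin m → Fin n → Bool, ∏ j, (if s j = (fun _ => true) then 0 else
      survProb q (s j)) = (1 - (1 - q) ^ n) ^ m := by
    have h := (Finset.prod_univ_sum (fun _ : Fin m => (Finset.univ : Finset (Fin n → Bool)))
      (fun _ s => if s = (fun _ => true) then 0 else survProb q s)).symm
    rw [Fintype.piFinset_univ] at h
    rw [h, Finset.prod_const, Finset.card_univ, Fintype.card_fin]
    congr 1
    have h2 : ∀ s : Fin n → Bool, (if s = (fun _ => true) then 0 else survProb q s)
        = survProb q s - (if s = (fun _ => true) then survProb q s else 0) := by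
      intro s
      split_ifs <;> ring
    rw [Finset.sum_congr rfl (fun s _ => h2 s), Finset.sum_sub_distrib, sum_survProb,
      Finset.sum_ite_eq' Finset.univ]
    simp [survProb]
  have hle : 1 - (1 - (1 - q) ^ n) ^ m ≤ successProb q (fullEst n m) x := by
    rw [← hbad]
    conv_lhs => rw [← htot]
    rw [← Finset.sum_sub_distrib]
    unfold successProb
    apply Finset.sum_le_sum
    intro s _
    have hnn : 0 ≤ ∏ j, survProb q (s j) := Finset.prod_nonneg (fun j _ => survProb_nonneg h0 h1 _)
    by_cases h : ∃ j, s j = fun _ => true
    · have e1 : (fullEst n m).prob (fun j => trace x (s j)) x = 1 := by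
        show (if x = outFn n m (fun j => trace x (s j)) then (1:ℝ) else 0) = 1
        rw [if_pos (outFn_eq x s h).symm]
      obtain ⟨j, hj⟩ := h
      have e2 : ∏ j, (if s j = (fun _ => true) then 0 else survProb q (s j)) = 0 :=
        Finset.prod_eq_zero (Finset.mem_univ j) (if_pos hj)
      rw [e1, e2]; linarith
    · push Not at h
      have e2 : ∏ j, (if s j = (fun _ => true) then 0 else survProb q (s j))
          = ∏ j, survProb q (s j) :=
        Finset.prod_congr rfl (fun j _ => if_neg (h j))
      rw [e2, sub_self]
      exact mul_nonneg hnn ((fullEst n m).nonneg _ _)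
  linarith

end Vale.Agent.Helper25.TR
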